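import Vale.Agent.P354XI.Defs
import Vale.Agent.P354XG.Ring

/-!
The concrete model: smooth functions on an open set O, the Haar measure, and the change of the
density.
-/

open scoped ContDiff
open Set Filter Topology MeasureTheory

namespace Vale.Agent.P354XI

open Vale.Agent.P354XG

section rew
variable {A : Type} [CommRing A] [Algebra ℂ A]

/-- The same ring with the density be. -/
noncomputable def Ibp.rew (B : Ibp A) (be : A) : Ibp A where
  c := B.c
  K := Submodule.comap (LinearMap.mulLeft A be) B.K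
  I := B.I ∘ₗ LinearMap.mulLeft ℂ be
  Pt := {x : B.Pt // B.ev x be ≠ 0}
  ev x := B.ev x.1

theorem Ibp.mem_rew {B : Ibp A} {be f : A} : f ∈ (B.rew be).K ↔ be * f ∈ B.K := Iff.rfl

theorem Ibp.rew_I (B : Ibp A) (be f : A) : (B.rew be).I f = B.I (be * f) := rfl

theorem Ibp.Is.rew {B : Ibp A} (h : B.Is) {be : A} (hr : B.Re be) (hp : ∀ x, 0 ≤ B.val x be) :
    (B.rew be).Is where
  cc := h.cc
  calg := h.calg
  K_c f hf := by
    rw [Ibp.mem_rew] at hf ⊢
    have := h.K_c _ hf
    rwa [map_mul, hr] at this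
  ev_alg x := h.ev_alg x.1
  ev_c x := h.ev_c x.1
  mono f hf e := by
    rw [Ibp.rew_I]
    refine h.mono _ (Ibp.mem_rew.1 hf) fun x => ?_
    rw [map_mul]
    by_cases c : B.ev x be = 0
    · rw [c, zero_mul, Complex.zero_re]
    · rw [h.ev_re hr, Complex.re_ofReal_mul]
      exact mul_nonneg (hp x) (e ⟨x, c⟩)

theorem Ibp.Dv.rew {B : Ibp A} {D : Der A} {d be : A} (h : B.Dv D d) (e : D be = 0) :
    (B.rew be).Dv D d where
  K_D f hf := by
    rw [Ibp.mem_rew] at hf ⊢
    have := h.K_D _ hf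
    rwa [D_mul, e, mul_zero, add_zero] at this
  ibp f hf := by
    have := h.ibp _ (Ibp.mem_rew.1 hf)
    rw [D_mul, e, mul_zero, add_zero] at this
    rw [Ibp.rew_I, Ibp.rew_I, this, mul_left_comm]

theorem Ibp.Skew.rew {B : Ibp A} {D : Der A} {be : A} (h : B.Skew D) (e : D be = 0) :
    (B.rew be).Skew D := ⟨h.dv.rew e, h.re⟩

end rew

variable {E : Type} [NormedAddCommGroup E] [NormedSpace ℝ E]

/-- The filter of one open set. -/
abbrev on (O : Set E) : Filter (Unit × E) := nb ⊤ fun _ => O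

variable {O : Set E}

omit [NormedSpace ℝ E] in
theorem ev_on {P : Unit × E → Prop} (h : ∀ᶠ p in on O, P p) {x : E} (hx : x ∈ O) : P ((), x) :=
  (eventually_top.1 (ev_nb_on h) ()) x hx

omit [NormedSpace ℝ E] in
theorem on_of (hO : IsOpen O) {P : Unit × E → Prop} (h : ∀ x ∈ O, P ((), x)) :
    ∀ᶠ p in on O, P p :=
  ev_nb.2 (Eventually.of_forall fun _ _ hx => (hO.eventually_mem hx).mono h)

/-- The value at a point, zero off O. -/
noncomputable def fv (a : Sm (on O)) : E → ℂ := O.indicator fun x => rep a ((), x)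

theorem fv_in (a : Sm (on O)) {x : E} (hx : x ∈ O) : fv a x = rep a ((), x) := indicator_of_mem hx _
theorem fv_out (a : Sm (on O)) {x : E} (hx : x ∉ O) : fv a x = 0 := indicator_of_notMem hx _

theorem fv_mk {f : Unit × E → ℂ} (hf : SmF (on O) f) {x : E} (hx : x ∈ O) :
    fv (mk f hf) x = f ((), x) := by rw [fv_in _ hx, ev_on (rep_mk f hf) hx]

theorem fv_add (a b : Sm (on O)) (x : E) : fv (a + b) x = fv a x + fv b x := by
  by_cases hx : x ∈ O
  · rw [fv_in _ hx, fv_in _ hx, fv_in _ hx, ev_on (rep_add a b) hx, Pi.add_apply]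
  · rw [fv_out _ hx, fv_out _ hx, fv_out _ hx, add_zero]

theorem fv_mul (a b : Sm (on O)) (x : E) : fv (a * b) x = fv a x * fv b x := by
  by_cases hx : x ∈ O
  · rw [fv_in _ hx, fv_in _ hx, fv_in _ hx, ev_on (rep_mul a b) hx, Pi.mul_apply]
  · rw [fv_out _ hx, fv_out _ hx, zero_mul]

theorem fv_alg (z : ℂ) {x : E} (hx : x ∈ O) : fv (algebraMap ℂ (Sm (on O)) z) x = z := by
  rw [fv_in _ hx, ev_on (rep_alg z) hx]

theorem fv_zero (x : E) : fv (0 : Sm (on O)) x = 0 := by
  by_cases hx : x ∈ O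
  · rw [fv_in _ hx, ev_on rep_zero hx]
  · exact fv_out _ hx

theorem fv_smul (z : ℂ) (a : Sm (on O)) (x : E) : fv (z • a) x = z * fv a x := by
  by_cases hx : x ∈ O
  · rw [Algebra.smul_def, fv_mul, fv_alg z hx]
  · rw [fv_out _ hx, fv_out _ hx, mul_zero]

theorem fv_cj (a : Sm (on O)) (x : E) : fv (cj a) x = starRingEnd ℂ (fv a x) := by
  by_cases hx : x ∈ O
  · rw [fv_in _ hx, fv_in _ hx, ev_on (rep_cj a) hx]
  · rw [fv_out _ hx, fv_out _ hx, map_zero]

theorem fv_near (hO : IsOpen O) (a : Sm (on O)) {x : E} (hx : x ∈ O) :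
    fv a =ᶠ[𝓝 x] sl (rep a) () := (hO.eventually_mem hx).mono fun _ hy => fv_in a hy

theorem fv_sm (hO : IsOpen O) (a : Sm (on O)) {x : E} (hx : x ∈ O) : ContDiffAt ℝ ∞ (fv a) x :=
  (ev_on (rep_sm a) hx).congr_of_eventuallyEq (fv_near hO a hx)

theorem fv_pd (hO : IsOpen O) (v : E) (a : Sm (on O)) {x : E} (hx : x ∈ O) :
    fv (pd v a) x = fderiv ℝ (fv a) x v := by
  rw [fv_in _ hx, ev_on (rep_pd v a) hx, (fv_near hO a hx).fderiv_eq]
  rfl

theorem ext_fv (hO : IsOpen O) {a b : Sm (on O)} (h : ∀ x ∈ O, fv a x = fv b x) : a = b :=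
  ext_rep (on_of hO fun x hx => by rw [← fv_in a hx, ← fv_in b hx, h x hx])

/-- The class of a function which is smooth on O. -/
noncomputable def of (hO : IsOpen O) (f : E → ℂ) (hf : ContDiffOn ℝ ∞ f O) : Sm (on O) :=
  fn f (on_of hO fun _ hx => hf.contDiffAt (hO.mem_nhds hx))

theorem fv_of (hO : IsOpen O) {f : E → ℂ} (hf : ContDiffOn ℝ ∞ f O) {x : E} (hx : x ∈ O) :
    fv (of hO f hf) x = f x :=
  fv_mk (f := fun p => f p.2) (on_of hO fun _ hx => hf.contDiffAt (hO.mem_nhds hx)) hx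

/-- The value at a point of O as a ring homomorphism. -/
noncomputable def evO (x : O) : Sm (on O) →+* ℂ where
  toFun a := fv a x
  map_one' := by simpa using fv_alg (O := O) 1 x.2
  map_zero' := fv_zero _
  map_add' a b := fv_add a b _
  map_mul' a b := fv_mul a b _

variable (O) in
/-- The ideal of the functions with compact support in O. -/
def cs : Ideal (Sm (on O)) where
  carrier := {a | ∃ C, IsCompact C ∧ C ⊆ O ∧ ∀ x ∉ C, fv a x = 0}
  add_mem' := by
    rintro a b ⟨C, hC, sC, ha⟩ ⟨D, hD, sD, hb⟩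
    exact ⟨C ∪ D, hC.union hD, union_subset sC sD, fun x hx => by
      rw [fv_add, ha x fun h => hx (Or.inl h), hb x fun h => hx (Or.inr h), add_zero]⟩
  zero_mem' := ⟨∅, isCompact_empty, empty_subset _, fun x _ => fv_zero x⟩
  smul_mem' := by
    rintro b a ⟨C, hC, sC, ha⟩
    exact ⟨C, hC, sC, fun x hx => by rw [smul_eq_mul, fv_mul, ha x hx, mul_zero]⟩

theorem cs_sm (hO : IsOpen O) {a : Sm (on O)} (h : a ∈ cs O) : ContDiff ℝ ∞ (fv a) := by
  obtain ⟨C, hC, sC, ha⟩ := h
  refine contDiff_iff_contDiffAt.2 fun x => ?_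
  by_cases hx : x ∈ C
  · exact fv_sm hO a (sC hx)
  · exact (contDiffAt_const (c := 0)).congr_of_eventuallyEq
      ((hC.isClosed.isOpen_compl.eventually_mem hx).mono ha)

theorem cs_supp {a : Sm (on O)} (h : a ∈ cs O) : HasCompactSupport (fv a) := by
  obtain ⟨C, hC, -, ha⟩ := h
  exact HasCompactSupport.intro hC ha

theorem cs_fd (hO : IsOpen O) (v : E) {a : Sm (on O)} (h : a ∈ cs O) (x : E) :
    fv (pd v a) x = fderiv ℝ (fv a) x v := by
  by_cases hx : x ∈ O
  · exact fv_pd hO v a hx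
  · obtain ⟨C, hC, sC, ha⟩ := h
    have : fv a =ᶠ[𝓝 x] fun _ => 0 :=
      (hC.isClosed.isOpen_compl.eventually_mem fun c => hx (sC c)).mono ha
    rw [fv_out _ hx, this.fderiv_eq]
    simp

theorem cs_pd (hO : IsOpen O) (v : E) {a : Sm (on O)} (h : a ∈ cs O) : pd v a ∈ cs O := by
  obtain ⟨C, hC, sC, ha⟩ := id h
  refine ⟨C, hC, sC, fun x hx => ?_⟩
  have : fv a =ᶠ[𝓝 x] fun _ => 0 := (hC.isClosed.isOpen_compl.eventually_mem hx).mono ha
  rw [cs_fd hO v h, this.fderiv_eq]
  simp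

variable [MeasurableSpace E] [BorelSpace E] [FiniteDimensional ℝ E] (μ : Measure E)
  [μ.IsAddHaarMeasure]

omit [FiniteDimensional ℝ E] in
theorem cs_int (hO : IsOpen O) {a : Sm (on O)} (h : a ∈ cs O) : Integrable (fv a) μ :=
  (cs_sm hO h).continuous.integrable_of_hasCompactSupport (cs_supp h)

/-- The integral on the ideal. -/
noncomputable def int0 (hO : IsOpen O) : (cs O).restrictScalars ℂ →ₗ[ℂ] ℂ where
  toFun a := ∫ x, fv a.1 x ∂μ
  map_add' a b := by
    rw [← integral_add (cs_int μ hO a.2) (cs_int μ hO b.2)]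
    simp only [Submodule.coe_add, fv_add]
  map_smul' z a := by
    simp only [Submodule.coe_smul, fv_smul, RingHom.id_apply, smul_eq_mul, integral_const_mul]

/-- The model. -/
noncomputable def box (hO : IsOpen O) : Ibp (Sm (on O)) where
  c := cj
  K := cs O
  I := (LinearMap.exists_extend (int0 μ hO)).choose
  Pt := O
  ev := evO

theorem box_I (hO : IsOpen O) {a : Sm (on O)} (h : a ∈ cs O) :
    (box μ hO).I a = ∫ x, fv a x ∂μ :=
  LinearMap.congr_fun (LinearMap.exists_extend (int0 μ hO)).choose_spec ⟨a, h⟩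

theorem box_ev (hO : IsOpen O) (x : O) (a : Sm (on O)) : (box μ hO).ev x a = fv a x := rfl

theorem box_J (hO : IsOpen O) {a : Sm (on O)} (h : a ∈ cs O) :
    (box μ hO).J a = ∫ x, (fv a x).re ∂μ := by
  rw [Ibp.J, box_I μ hO h]
  exact (integral_re (cs_int μ hO h)).symm

theorem box_is (hO : IsOpen O) : (box μ hO).Is where
  cc := cj_cj
  calg := cj_alg
  K_c := by
    rintro a ⟨C, hC, sC, ha⟩
    exact ⟨C, hC, sC, fun x hx => (fv_cj a x).trans (by rw [ha x hx, map_zero])⟩
  ev_alg x z := fv_alg z x.2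
  ev_c x a := fv_cj a x.1
  mono a h e := by
    have := box_J μ hO h
    rw [Ibp.J] at this
    rw [this]
    refine integral_nonneg fun x => ?_
    by_cases hx : x ∈ O
    · exact e ⟨x, hx⟩
    · simp [fv_out a hx]

theorem box_skew (hO : IsOpen O) (v : E) : (box μ hO).Skew (pd v) where
  re := cj_pd v
  dv :=
    { K_D := fun _ h => cs_pd hO v h
      ibp := fun a h => by
        rw [zero_mul, map_zero, neg_zero, box_I μ hO (cs_pd hO v h)]
        have i2 := cs_int μ hO (cs_pd hO v h)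
        have e : fv (pd v a) = fun x => fderiv ℝ (fv a) x v := funext (cs_fd hO v h)
        rw [e] at i2 ⊢
        have := integral_mul_fderiv_eq_neg_fderiv_mul_of_integrable (μ := μ)
          (f := fun _ : E => (1 : ℂ)) (g := fv a) (v := v) (by simp) (by simpa using i2)
          (by simpa using cs_int μ hO h) (fun _ _ => differentiableAt_const _)
          (fun x _ => (cs_sm hO h).differentiable (by simp) x)
        simpa using this }

end Vale.Agent.P354XI
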