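import Vale.Agent.P354XI.Defs

/-!
Pointwise values of pairings, Young inequalities, and the identity for three letters.
-/

namespace Vale.Agent.P354XI

open Vale.Agent.P354XG (Der D_mul D_add D_sub D_neg D_alg)

variable {A : Type} [CommRing A] [Algebra ℂ A]

namespace Ibp

variable {B : Ibp A}

/-- The real and imaginary parts of the value, and the real inner product at a point. -/
def im (B : Ibp A) (x : B.Pt) (f : A) : ℝ := (B.ev x f).im
def ip (B : Ibp A) (x : B.Pt) (f g : A) : ℝ := B.val x f * B.val x g + B.im x f * B.im x g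

theorem md_sq (x : B.Pt) (f : A) : B.md x f ^ 2 = B.val x f ^ 2 + B.im x f ^ 2 := by
  rw [md, Complex.sq_norm, Complex.normSq_apply, val, im]; ring

theorem ip_self (x : B.Pt) (f : A) : B.ip x f f = B.md x f ^ 2 := by rw [md_sq, ip]; ring

theorem ip_comm (x : B.Pt) (f g : A) : B.ip x f g = B.ip x g f := by rw [ip, ip]; ring

theorem abs_ip_le (x : B.Pt) (f g : A) : |B.ip x f g| ≤ B.md x f * B.md x g := by
  refine abs_le_of_sq_le_sq' ?_ (mul_nonneg (md_nonneg x f) (md_nonneg x g)) |> abs_le.2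
  rw [mul_pow, md_sq, md_sq, ip]
  nlinarith [sq_nonneg (B.val x f * B.im x g - B.im x f * B.val x g)]

theorem im_add (x : B.Pt) (f g : A) : B.im x (f + g) = B.im x f + B.im x g := by simp [im]
theorem im_sub (x : B.Pt) (f g : A) : B.im x (f - g) = B.im x f - B.im x g := by simp [im]
theorem im_neg (x : B.Pt) (f : A) : B.im x (-f) = -B.im x f := by simp [im]
theorem im_sum {ι : Type} (x : B.Pt) (s : Finset ι) (f : ι → A) :
    B.im x (∑ i ∈ s, f i) = ∑ i ∈ s, B.im x (f i) := by simp [im]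

theorem Re.add {f g : A} (hf : B.Re f) (hg : B.Re g) : B.Re (f + g) := by
  rw [Re, map_add, hf, hg]
theorem Re.sub {f g : A} (hf : B.Re f) (hg : B.Re g) : B.Re (f - g) := by
  rw [Re, map_sub, hf, hg]
theorem Re.mul {f g : A} (hf : B.Re f) (hg : B.Re g) : B.Re (f * g) := by
  rw [Re, map_mul, hf, hg]
theorem Re.neg {f : A} (hf : B.Re f) : B.Re (-f) := by rw [Re, map_neg, hf]
theorem Re.pow {f : A} (hf : B.Re f) (n : ℕ) : B.Re (f ^ n) := by rw [Re, map_pow, hf]
theorem re_one : B.Re 1 := map_one _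
theorem re_zero : B.Re 0 := map_zero _
theorem re_two : B.Re 2 := map_ofNat _ 2
theorem Re.sum {ι : Type} (s : Finset ι) {f : ι → A} (h : ∀ i ∈ s, B.Re (f i)) :
    B.Re (∑ i ∈ s, f i) := Finset.sum_induction _ _ (fun _ _ => Re.add) re_zero h

theorem val_one (x : B.Pt) : B.val x 1 = 1 := by simp [val]
theorem val_zero (x : B.Pt) : B.val x 0 = 0 := by simp [val]
theorem val_two (x : B.Pt) : B.val x 2 = 2 := by
  rw [val, map_ofNat]; simp
theorem md_zero (x : B.Pt) : B.md x 0 = 0 := by simp [md]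

theorem bil_zero_w (f g : A) : B.bil 0 f g = 0 := by rw [bil, zero_mul, J_zero]
theorem bil_zero_l (w g : A) : B.bil w 0 g = 0 := by rw [bil, zero_mul, mul_zero, J_zero]
theorem bil_zero_r (w f : A) : B.bil w f 0 = 0 := by rw [bil, map_zero, mul_zero, mul_zero, J_zero]
theorem bil_neg_l (w f g : A) : B.bil w (-f) g = -B.bil w f g := by
  rw [bil, neg_mul, mul_neg, J_neg]; rfl
theorem bil_neg_r (w f g : A) : B.bil w f (-g) = -B.bil w f g := by
  rw [bil, map_neg, mul_neg, mul_neg, J_neg]; rfl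
theorem bil_sum_l {ι : Type} (s : Finset ι) (w : A) (f : ι → A) (g : A) :
    B.bil w (∑ i ∈ s, f i) g = ∑ i ∈ s, B.bil w (f i) g := by
  simp only [bil, Finset.sum_mul, Finset.mul_sum, J_sum]
theorem bil_sum_r {ι : Type} (s : Finset ι) (w f : A) (g : ι → A) :
    B.bil w f (∑ i ∈ s, g i) = ∑ i ∈ s, B.bil w f (g i) := by
  simp only [bil, map_sum, Finset.mul_sum, J_sum]
theorem bil_sum_w {ι : Type} (s : Finset ι) (w : ι → A) (f g : A) :
    B.bil (∑ i ∈ s, w i) f g = ∑ i ∈ s, B.bil (w i) f g := by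
  simp only [bil, Finset.sum_mul, J_sum]
theorem bil_two_w (w f g : A) : B.bil (2 * w) f g = 2 * B.bil w f g := by
  rw [two_mul, bil_add_w, two_mul]
theorem bil_re_r {a : A} (ha : B.Re a) (w f g : A) : B.bil w f (a * g) = B.bil (w * a) f g := by
  rw [bil_mul_r, ha]
theorem nsq_add_w (w w' f : A) : B.nsq (w + w') f = B.nsq w f + B.nsq w' f := bil_add_w _ _ _ _
theorem nsq_sub_w (w w' f : A) : B.nsq (w - w') f = B.nsq w f - B.nsq w' f := bil_sub_w _ _ _ _
theorem nsq_rl_w (t : ℝ) (w f : A) : B.nsq (rl A t * w) f = t * B.nsq w f := bil_rl_w _ _ _ _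

namespace Is
variable (h : B.Is)
include h

theorem re_rl (t : ℝ) : B.Re (rl A t) := h.c_rl t

theorem val_mul {w : A} (hw : B.Re w) (x : B.Pt) (f : A) :
    B.val x (w * f) = B.val x w * B.val x f := by
  rw [val, map_mul, h.ev_re hw, Complex.re_ofReal_mul, val, val]

theorem im_mul {w : A} (hw : B.Re w) (x : B.Pt) (f : A) :
    B.im x (w * f) = B.val x w * B.im x f := by
  rw [im, map_mul, h.ev_re hw, Complex.im_ofReal_mul, im]

theorem val_pow {w : A} (hw : B.Re w) (x : B.Pt) (n : ℕ) : B.val x (w ^ n) = B.val x w ^ n := by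
  induction n with
  | zero => rw [pow_zero, pow_zero, val_one]
  | succ n ih => rw [pow_succ', h.val_mul hw, ih, pow_succ']

theorem md_re {w : A} (hw : B.Re w) (x : B.Pt) : B.md x w = |B.val x w| := by
  rw [md, h.ev_re hw, Complex.norm_real, Real.norm_eq_abs]

theorem md_rl (x : B.Pt) (t : ℝ) : B.md x (rl A t) = |t| := by rw [h.md_re (h.re_rl t), h.val_rl]

theorem val_ip (x : B.Pt) (f g : A) : B.val x (f * B.c g) = B.ip x f g := by
  rw [val, map_mul, h.ev_c, ip, val, val, im, im]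
  simp

theorem val_bil {w : A} (hw : B.Re w) (x : B.Pt) (f g : A) :
    B.val x (w * (f * B.c g)) = B.val x w * B.ip x f g := by rw [h.val_mul hw, h.val_ip]

theorem abs_val_bil (x : B.Pt) (w f g : A) :
    |B.val x (w * (f * B.c g))| ≤ B.md x w * (B.md x f * B.md x g) := by
  refine (abs_val_le x _).trans (le_of_eq ?_)
  rw [md_mul, md_mul, h.md_c]

/-- Comparison of a pairing with finitely many squares. -/
theorem bil_le {ι : Type} (s : Finset ι) {w : A} (hw : w ∈ B.K) (f g : A) {W : ι → A}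
    (hW : ∀ i ∈ s, W i ∈ B.K ∧ B.Re (W i)) (p : ι → A)
    (e : ∀ x, B.md x w * (B.md x f * B.md x g) ≤ ∑ i ∈ s, B.val x (W i) * B.md x (p i) ^ 2) :
    |B.bil w f g| ≤ ∑ i ∈ s, B.nsq (W i) (p i) := by
  have k : (∑ i ∈ s, W i * (p i * B.c (p i))) ∈ B.K :=
    Ideal.sum_mem _ fun i hi => B.K.mul_mem_right _ (hW i hi).1
  have v : ∀ x, B.val x (∑ i ∈ s, W i * (p i * B.c (p i))) =
      ∑ i ∈ s, B.val x (W i) * B.md x (p i) ^ 2 := fun x => by
    rw [val_sum]
    exact Finset.sum_congr rfl fun i hi => h.val_nsq (hW i hi).2 x _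
  have j : ∑ i ∈ s, B.nsq (W i) (p i) = B.J (∑ i ∈ s, W i * (p i * B.c (p i))) := by
    rw [J_sum]; rfl
  have m := B.K.mul_mem_right (f * B.c g) hw
  rw [j, abs_le, bil, ← J_neg]
  exact ⟨h.J_le (B.K.neg_mem k) m fun x => by
      rw [val_neg, v]; linarith [(abs_le.1 ((h.abs_val_bil x w f g).trans (e x))).1],
    h.J_le m k fun x => by
      rw [v]; exact (abs_le.1 ((h.abs_val_bil x w f g).trans (e x))).2⟩

/-- The Young inequality. -/
theorem young {w W V : A} (hw : w ∈ B.K) (hW : B.Wt W) (hV : B.Wt V) (f g : A)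
    (e : ∀ x, B.md x w ^ 2 ≤ 4 * (B.val x W * B.val x V)) :
    |B.bil w f g| ≤ B.nsq W f + B.nsq V g := by
  have := h.bil_le (Finset.univ : Finset Bool) hw f g (W := fun b => cond b W V)
    (fun b _ => by cases b; exacts [⟨hV.K, hV.re⟩, ⟨hW.K, hW.re⟩]) (fun b => cond b f g) fun x => by
      simp only [Fintype.sum_bool, cond]
      have a := md_nonneg x w
      have b := mul_nonneg (md_nonneg x f) (md_nonneg x g)
      have c := mul_nonneg (hW.pos x) (sq_nonneg (B.md x f))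
      have d := mul_nonneg (hV.pos x) (sq_nonneg (B.md x g))
      refine abs_le_of_sq_le_sq' ?_ (add_nonneg c d) |>.2
      have := mul_le_mul_of_nonneg_right (e x) (sq_nonneg (B.md x f * B.md x g))
      nlinarith [sq_nonneg (B.val x W * B.md x f ^ 2 - B.val x V * B.md x g ^ 2)]
  simpa only [Fintype.sum_bool, cond] using this

/-- Comparison of squares. -/
theorem nsq_le {ι : Type} (s : Finset ι) {w : A} (hw : w ∈ B.K) (hr : B.Re w) (f : A) {W : ι → A}
    (hW : ∀ i ∈ s, W i ∈ B.K ∧ B.Re (W i)) (p : ι → A)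
    (e : ∀ x, B.val x w * B.md x f ^ 2 ≤ ∑ i ∈ s, B.val x (W i) * B.md x (p i) ^ 2) :
    B.nsq w f ≤ ∑ i ∈ s, B.nsq (W i) (p i) := by
  have j : ∑ i ∈ s, B.nsq (W i) (p i) = B.J (∑ i ∈ s, W i * (p i * B.c (p i))) := by
    rw [J_sum]; rfl
  rw [j]
  refine h.J_le (B.K.mul_mem_right _ hw)
    (Ideal.sum_mem _ fun i hi => B.K.mul_mem_right _ (hW i hi).1) fun x => ?_
  rw [val_sum, h.val_nsq hr, Finset.sum_congr rfl fun i hi => h.val_nsq (hW i hi).2 x _]
  exact e x

theorem nsq_mono {w W : A} (hw : w ∈ B.K) (hr : B.Re w) (hW : W ∈ B.K) (hR : B.Re W) (f g : A)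
    (e : ∀ x, B.val x w * B.md x f ^ 2 ≤ B.val x W * B.md x g ^ 2) : B.nsq w f ≤ B.nsq W g :=
  h.J_le (B.K.mul_mem_right _ hw) (B.K.mul_mem_right _ hW) fun x => by
    rw [h.val_nsq hr, h.val_nsq hR]; exact e x

theorem nsq_add_le {w : A} (hw : B.Wt w) (f g : A) :
    B.nsq w (f + g) ≤ 2 * B.nsq w f + 2 * B.nsq w g := by
  have a := h.nsq_nonneg hw (f - g)
  have c := h.bil_comm hw.K hw.re f g
  simp only [nsq, bil_add_l, bil_add_r, bil_sub_l, bil_sub_r] at a ⊢
  linarith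

theorem wt_mul {w a : A} (hw : B.Wt w) (ha : B.Re a) (p : ∀ x, 0 ≤ B.val x a) : B.Wt (w * a) :=
  ⟨B.K.mul_mem_right _ hw.K, hw.re.mul ha, fun x => by
    rw [h.val_mul hw.re]; exact mul_nonneg (hw.pos x) (p x)⟩

theorem wt_rl {w : A} (hw : B.Wt w) {t : ℝ} (p : 0 ≤ t) : B.Wt (rl A t * w) := by
  rw [mul_comm]; exact h.wt_mul hw (h.re_rl t) fun x => by rwa [h.val_rl]

/-- The identity for three letters. -/
theorem three {D1 D2 D3 : Der A} (h1 : B.Skew D1) (h2 : B.Skew D2) (h3 : B.Skew D3) {w : A}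
    (hw : w ∈ B.K) (hr : B.Re w) (u : A) :
    2 * B.bil w (D1 (D2 u)) (D3 u) = B.bil (D3 w) (D1 u) (D2 u) - B.bil (D1 w) (D2 u) (D3 u) -
      B.bil (D2 w) (D1 u) (D3 u) - B.bil w (D2 u) (D1 (D3 u) - D3 (D1 u)) -
      B.bil w (D1 u) (D2 (D3 u) - D3 (D2 u)) + B.bil w (D1 (D2 u) - D2 (D1 u)) (D3 u) := by
  have a := h1.move hw (D2 u) (D3 u)
  have b := h2.move hw (D1 u) (D3 u)
  have c := h3.move hw (D1 u) (D2 u)
  have d := h.bil_comm hw hr (D2 u) (D3 (D1 u))
  simp only [bil_sub_l, bil_sub_r]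
  linarith

omit h in
/-- Two integrations by parts: the square of a second order operator. -/
theorem four {D1 D2 : Der A} (h1 : B.Skew D1) (h2 : B.Skew D2) {w : A} (hw : w ∈ B.K) (u : A) :
    B.bil w (D1 (D1 u)) (D2 (D2 u)) = B.bil w (D2 (D1 u)) (D1 (D2 u)) +
      B.bil (D2 w) (D1 u) (D1 (D2 u)) - B.bil (D1 w) (D1 u) (D2 (D2 u)) -
      B.bil w (D1 u) (D1 (D2 (D2 u)) - D2 (D1 (D2 u))) := by
  have a := h1.move hw (D1 u) (D2 (D2 u))
  have b := h2.move hw (D1 u) (D1 (D2 u))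
  simp only [bil_sub_r]
  linarith

end Is

theorem Wt.add {w w' : A} (hw : B.Wt w) (hw' : B.Wt w') : B.Wt (w + w') :=
  ⟨B.K.add_mem hw.K hw'.K, hw.re.add hw'.re, fun x => by
    rw [val_add]; exact add_nonneg (hw.pos x) (hw'.pos x)⟩

end Ibp

end Vale.Agent.P354XI
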