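import Vale.Agent.P354XT.Calc

/-!
The two multiplier estimates for one section: the estimate in unit time and the red shift.
The weight is psi (t, r); G is the good part and bd a bound for the bad part of its gradient.
-/

open scoped ContDiff
open Set

namespace Vale.Agent.P354XI

open Vale.Agent.P354XT
open Vale.Agent.P354BF (rp)

/-- The gradient of psi on S: decay in t (al), growth in r below rI (be), decay in t + r above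
Rs (ga), up to bd. -/
structure Dec (S : Set (ℝ × ℝ)) (rI Rs : ℝ) (ψ G bd : ℝ × ℝ → ℝ) : Prop where
  s1 : ContDiff ℝ ∞ ψ
  s2 : ContDiff ℝ ∞ G
  s3 : ContDiff ℝ ∞ bd
  pos : ∀ p ∈ S, 0 ≤ ψ p
  dec : ∀ p ∈ S, ∃ al be ga : ℝ, 0 ≤ al ∧ 0 ≤ be ∧ 0 ≤ ga ∧ G p = al + be + ga ∧
    (be ≠ 0 → p.2 ≤ rI) ∧ (ga ≠ 0 → Rs ≤ p.2) ∧ |fderiv ℝ ψ p (1, 0) + al + ga| ≤ bd p ∧
    |fderiv ℝ ψ p (0, 1) - be + ga| ≤ bd p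

variable {A : Type} [CommRing A] [Algebra ℂ A]

/-- The weights vanish off the compact set S, on which the perturbation is small. -/
structure Cut (Φ : Fld A) (S : Set (ℝ × ℝ)) (rm Rb eps : ℝ) (ψ G bd : ℝ × ℝ → ℝ)
    (del : Fin 5 → Fin 5 → A) : Prop where
  cp : IsCompact S
  sub : S ⊆ Φ.Om
  rad : ∀ p ∈ S, rm ≤ p.2 ∧ p.2 ≤ Rb
  out : ∀ p, p ∉ S → ψ p = 0 ∧ G p = 0 ∧ bd p = 0
  dre : ∀ b c, Φ.B.Re (del b c)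
  del : ∀ x, Φ.pr x ∈ S → ∀ b c, ∀ J ∈ words 1, Φ.B.md x (Φ.wd J (del b c)) ≤ eps

/-- The integral of F with the weight w. -/
def Jw (Φ : Fld A) (w : ℝ × ℝ → ℝ) (F : A) : ℝ := Φ.B.J (Φ.fn w * F)

/-- The estimate in unit time. -/
def UNI : Prop :=
  ∀ M0 a0 rm : ℝ, |a0| < M0 → ∀ f, Slope M0 a0 rm f → ∃ Rs : ℝ, ∀ N rI Rb : ℝ, rI < rp M0 a0 →
    ∃ C dl eps : ℝ, 0 < C ∧ 0 < dl ∧ 0 < eps ∧ ∀ M a : ℝ, |M - M0| < dl → |a - a0| < dl →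
      ∀ (A : Type) [CommRing A] [Algebra ℂ A] (Φ : Fld A), Φ.Is → |Φ.s| ≤ N →
      (Φ.f = fun r => f (M, a, r)) → ∀ S ψ G bd del, Dec S rI Rs ψ G bd →
      Cut Φ S rm Rb eps ψ G bd del → ∀ s : ℝ, |s| ≤ N → ∀ u ∈ Φ.Sp,
        Jw Φ G (Φ.jq 1 u) ≤ C * (Jw Φ bd (Φ.jq 1 u) + Jw Φ ψ (Φ.jq 1 u) +
          Jw Φ ψ (Φ.sq (Φ.P s Φ.s M a u + Φ.Q del u)))

/-- The red shift estimate; the weight vanishes above rb, so that Rs = rb + 1 plays no role. -/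
def RED : Prop :=
  ∀ M0 a0 rm : ℝ, |a0| < M0 → ∀ f, Slope M0 a0 rm f → ∀ N : ℝ, ∃ rb : ℝ, rp M0 a0 < rb ∧
    ∀ rI : ℝ, rI < rp M0 a0 →
    ∃ C dl eps : ℝ, 0 < C ∧ 0 < dl ∧ 0 < eps ∧ ∀ M a : ℝ, |M - M0| < dl → |a - a0| < dl →
      ∀ (A : Type) [CommRing A] [Algebra ℂ A] (Φ : Fld A), Φ.Is → |Φ.s| ≤ N →
      (Φ.f = fun r => f (M, a, r)) → ∀ S ψ G bd del, Dec S rI (rb + 1) ψ G bd →
      Cut Φ S rm rb eps ψ G bd del → ∀ s : ℝ, |s| ≤ N → ∀ u ∈ Φ.Sp,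
        Jw Φ G (Φ.jq 1 u) + Jw Φ ψ (Φ.jq 1 u) ≤ C * (Jw Φ bd (Φ.jq 1 u) + Jw Φ ψ (Φ.sq u) +
          Jw Φ ψ (Φ.sq (Φ.P s Φ.s M a u + Φ.Q del u)) + max s 0 * Jw Φ ψ (Φ.sq (Φ.R u)))

end Vale.Agent.P354XI
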