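import Vale.Agent.P354XI.Kw

/-!
The vector field lemma for the operators W0 + first order, with the multiplier Om (g S - R).
-/

namespace Vale.Agent.P354XI

open Vale.Agent.P354XG (Der D_mul D_add D_sub D_neg D_alg D_num D_one D_zero)
open Ibp

variable {A : Type} [CommRing A] [Algebra ℂ A]

/-- A pointwise inequality between finitely many pairings can be integrated. -/
theorem Ibp.Is.list {B : Ibp A} (h : B.Is) (l : List (ℝ × A × A × A))
    (hl : ∀ p ∈ l, p.2.1 ∈ B.K ∧ B.Re p.2.1)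
    (e : ∀ x, 0 ≤ (l.map fun p => p.1 * (B.val x p.2.1 * B.ip x p.2.2.1 p.2.2.2)).sum) :
    0 ≤ (l.map fun p => p.1 * B.bil p.2.1 p.2.2.1 p.2.2.2).sum := by
  have k : ∃ f ∈ B.K, B.J f = (l.map fun p => p.1 * B.bil p.2.1 p.2.2.1 p.2.2.2).sum ∧ ∀ x,
      B.val x f = (l.map fun p => p.1 * (B.val x p.2.1 * B.ip x p.2.2.1 p.2.2.2)).sum := by
    clear e
    induction l with
    | nil => exact ⟨0, B.K.zero_mem, J_zero, fun x => val_zero x⟩
    | cons p l ih =>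
      obtain ⟨f, hf, e1, e2⟩ := ih fun q hq => hl q (List.mem_cons_of_mem _ hq)
      obtain ⟨k1, k2⟩ := hl p List.mem_cons_self
      refine ⟨rl A p.1 * (p.2.1 * (p.2.2.1 * B.c p.2.2.2)) + f, B.K.add_mem
        (B.K.mul_mem_left _ (B.K.mul_mem_right _ k1)) hf, ?_, fun x => ?_⟩
      · rw [J_add, J_rl, e1, List.map_cons, List.sum_cons, bil]
      · rw [val_add, h.val_mul (h.re_rl _), h.val_rl, h.val_bil k2, e2, List.map_cons,
          List.sum_cons]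
  obtain ⟨f, hf, e1, e2⟩ := k
  rw [← e1]
  exact h.mono f hf fun x => by have := e x; rwa [← e2] at this

/-- The imaginary unit. -/
noncomputable def ci (A : Type) [CommRing A] [Algebra ℂ A] : A := algebraMap ℂ A Complex.I

theorem Ibp.Is.md_ci {B : Ibp A} (h : B.Is) (x : B.Pt) (f : A) : B.md x (ci A * f) = B.md x f := by
  rw [md_mul, md, ci, h.ev_alg, Complex.norm_I, one_mul]

/-- The part of the current which contains the gradient (P, q, m) of the weight. -/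
def gd (c1 c2 P q m0 m1 m2 R l A0 A1 A2 : ℝ) : ℝ :=
  c1 * (P * R ^ 2 + q * (A0 ^ 2 + A1 ^ 2 + A2 ^ 2) - 2 * (m0 * A0 + m1 * A1 + m2 * A2) * R) +
    c2 * (q * l ^ 2 + P * (A0 ^ 2 + A1 ^ 2 + A2 ^ 2) + 2 * (m0 * A0 + m1 * A1 + m2 * A2) * l)

namespace KW

variable (K : KW A) (B : Ibp A)

/-- The outgoing null field which is regular at the horizon. -/
noncomputable def lt (u : A) : A := K.De * K.R u + 2 * K.S u

/-- The operators; the Teukolsky operator of spin s has al = 1 - s, be = 2 - 4 s. -/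
noncomputable def Op (al be ga : ℝ) (u : A) : A :=
  K.W0 u + rl A al * K.De' * K.R u + rl A be * K.r * K.T u +
    rl A ga * K.ca * K.w 2 * (ci A * K.T u)

/-- The energy in the null frame. -/
noncomputable def en (w u : A) : ℝ :=
  B.nsq w (K.R u) + B.nsq w (K.lt u) + ∑ i, B.nsq w (K.Ad i u)

/-- The point x is in the zone of size k. -/
def Zone (k : ℝ) (x : B.Pt) : Prop := B.val x K.r ≤ k ∧ 1 ≤ k * B.val x K.r

variable {K B}

namespace Is
variable (h : K.Is B)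
include h

theorem val_a (x : B.Pt) : B.val x K.ca = K.a := h.is.val_rl x _
theorem val_M (x : B.Pt) : B.val x K.cM = K.M := h.is.val_rl x _
theorem val_De (x : B.Pt) :
    B.val x K.De = B.val x K.r ^ 2 - 2 * K.M * B.val x K.r + K.a ^ 2 := by
  rw [De, val_add, val_sub, h.is.val_mul h.re_r, h.is.val_mul (re_two.mul h.re_M),
    h.is.val_mul re_two, h.is.val_mul h.re_a, val_two, h.val_a, h.val_M]; ring
theorem val_De' (x : B.Pt) : B.val x K.De' = 2 * B.val x K.r - 2 * K.M := by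
  rw [De', val_sub, h.is.val_mul re_two, h.is.val_mul re_two, val_two, h.val_M]
theorem val_W (x : B.Pt) : B.val x K.W = B.val x K.r ^ 2 + K.a ^ 2 := by
  rw [W, val_add, h.is.val_mul h.re_r, h.is.val_mul h.re_a, h.val_a]; ring
theorem val_Sg (x : B.Pt) :
    B.val x K.Sg = B.val x K.r ^ 2 + K.a ^ 2 * B.val x (K.w 2) ^ 2 := by
  rw [Sg, val_add, h.is.val_mul h.re_r, h.is.val_mul (h.re_a.mul h.re_a), h.is.val_mul h.re_a,
    h.is.val_mul (h.re_w 2), h.val_a]; ring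
theorem val_one (x : B.Pt) :
    B.val x (K.w 0) ^ 2 + B.val x (K.w 1) ^ 2 + B.val x (K.w 2) ^ 2 = 1 := by
  have := congrArg (B.val x) h.one
  rw [val_add, val_add, h.is.val_mul (h.re_w 0), h.is.val_mul (h.re_w 1), h.is.val_mul (h.re_w 2),
    Ibp.val_one] at this
  linear_combination this
theorem abs_w (i : Fin 3) (x : B.Pt) : |B.val x (K.w i)| ≤ 1 := by
  have := h.val_one x
  have a := sq_nonneg (B.val x (K.w 0))
  have b := sq_nonneg (B.val x (K.w 1))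
  have c := sq_nonneg (B.val x (K.w 2))
  refine abs_le_one_iff_mul_self_le_one.2 ?_
  fin_cases i <;> simp only [Fin.reduceFinMk, Fin.zero_eta, Fin.mk_one] <;> nlinarith

/-- T is bounded by S and Ad 2. -/
theorem md_T (x : B.Pt) (u : A) : B.val x K.r ^ 2 * B.md x (K.T u) ≤
    B.md x (K.S u) + |K.a| * B.md x (K.Ad 2 u) := by
  have e := md_sub x (K.S u) (K.ca * K.Ad 2 u)
  rw [← Sg_T, md_mul, md_mul, h.is.md_re h.re_Sg, h.is.md_re h.re_a, h.val_a, h.val_Sg,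
    abs_of_nonneg (by positivity)] at e
  nlinarith [md_nonneg x (K.T u), mul_nonneg (sq_nonneg K.a) (sq_nonneg (B.val x (K.w 2)))]

theorem ip_lt (x : B.Pt) (u : A) :
    B.val x (K.lt u) = B.val x K.De * B.val x (K.R u) + 2 * B.val x (K.S u) ∧
      B.im x (K.lt u) = B.val x K.De * B.im x (K.R u) + 2 * B.im x (K.S u) := by
  rw [lt, val_add, im_add, h.is.val_mul h.re_De, h.is.im_mul h.re_De, h.is.val_mul re_two,
    h.is.im_mul re_two, val_two]
  exact ⟨rfl, rfl⟩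

/-- The exact identity. -/
theorem vf_id (al be ga g : ℝ) {Om : A} (hK : Om ∈ B.K) (hr : B.Re Om) (u : A) :
    -(2 * B.bil Om (K.Op al be ga u) (rl A g * K.S u - K.R u)) =
      -(2 * B.nsq (K.S Om) (K.R u)) - g * B.nsq (K.De * K.S Om) (K.R u) -
      B.nsq (K.De * K.R Om) (K.R u) + 2 * g * B.nsq (K.R Om) (K.S u) +
      2 * g * B.bil (K.De * K.R Om) (K.R u) (K.S u) +
      ∑ i, (B.nsq (K.R Om) (K.Ad i u) - g * B.nsq (K.S Om) (K.Ad i u) +
        2 * g * B.bil (K.Ad i Om) (K.Ad i u) (K.S u) - 2 * B.bil (K.Ad i Om) (K.Ad i u) (K.R u)) +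
      (2 * al - 1) * B.nsq (Om * K.De') (K.R u) +
      2 * g * (1 - al) * B.bil (Om * K.De') (K.R u) (K.S u) +
      4 * g * B.bil (Om * K.De * K.r) (K.R u) (K.T u) +
      (8 - 2 * be) * g * B.bil (Om * K.r) (K.T u) (K.S u) +
      2 * be * B.bil (Om * K.r) (K.T u) (K.R u) -
      2 * ga * g * B.bil (Om * K.ca * K.w 2) (ci A * K.T u) (K.S u) +
      2 * ga * B.bil (Om * K.ca * K.w 2) (ci A * K.T u) (K.R u) := by
  have e1 := h.cur_R hK hr u
  have e2 := h.cur_S hK hr u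
  rw [D_mul, h.R_De] at e1 e2
  have k : ∀ (t : ℝ) (p f v : A), B.bil Om (rl A t * p * f) v = t * B.bil (Om * p) f v :=
    fun t p f v => by rw [mul_assoc, bil_mul_l, mul_comm Om, bil_rl_w, bil_mul_l]
  have k' : ∀ f, B.bil Om f (rl A g * K.S u - K.R u) =
      g * B.bil Om f (K.S u) - B.bil Om f (K.R u) := fun f => by
    rw [bil_sub_r, bil_re_r (h.is.re_rl g), mul_comm Om, bil_rl_w]
  rw [k', Op, mul_assoc (rl A ga)]
  simp only [bil_add_l, k, nsq, bil_add_w, bil_two_w, Fin.sum_univ_three, mul_assoc Om] at e1 e2 ⊢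
  linear_combination -g * e2 + e1

theorem zone_bd {k : ℝ} (k1 : 1 ≤ k) (ha : |K.a| ≤ k) (hM : |K.M| ≤ k) {x : B.Pt}
    (z : K.Zone B k x) : |B.val x K.r| ≤ k ∧ |B.val x K.De| ≤ 4 * k ^ 2 ∧
      |B.val x K.De'| ≤ 4 * k ∧ ∀ u, B.md x (K.T u) ≤
        k ^ 3 * (B.md x (K.S u) + B.md x (K.Ad 2 u)) := by
  obtain ⟨z1, z2⟩ := z
  have r0 : 0 < B.val x K.r := by nlinarith
  obtain ⟨a1, a2⟩ := abs_le.1 ha
  obtain ⟨m1, m2⟩ := abs_le.1 hM
  refine ⟨abs_le.2 ⟨by linarith, z1⟩, ?_, ?_, fun u => ?_⟩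
  · rw [h.val_De]; exact abs_le.2 ⟨by nlinarith, by nlinarith⟩
  · rw [h.val_De']; exact abs_le.2 ⟨by linarith, by linarith⟩
  · have e := h.md_T x u
    have p1 := md_nonneg x (K.T u)
    have p2 := md_nonneg x (K.S u)
    have p3 := md_nonneg x (K.Ad 2 u)
    have q : 1 ≤ k ^ 2 * B.val x K.r ^ 2 := by nlinarith
    have e2 : B.val x K.r ^ 2 * B.md x (K.T u) ≤ k * (B.md x (K.S u) + B.md x (K.Ad 2 u)) := by
      nlinarith [mul_le_mul_of_nonneg_right ha p3]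
    nlinarith [mul_le_mul_of_nonneg_left e2 (sq_nonneg k), mul_le_mul_of_nonneg_right q p1]

end Is
end KW

/-- The cross terms. -/
theorem cross_le {k ze c1 c2 c3 c4 c5 p1 p2 p3 p4 p5 R S T a : ℝ} (k1 : 1 ≤ k) (z0 : 0 < ze)
    (z1 : ze ≤ 1) (h1 : |c1| ≤ k) (h2 : |c2| ≤ k) (h3 : |c3| ≤ k) (h4 : |c4| ≤ k) (h5 : |c5| ≤ k)
    (q1 : |p1| ≤ R * S) (q2 : |p2| ≤ R * T) (q3 : |p3| ≤ T * S) (q4 : |p4| ≤ T * S)
    (q5 : |p5| ≤ T * R) (hR : 0 ≤ R) (hS : 0 ≤ S) (ha : 0 ≤ a) (e : T ≤ k * (S + a)) :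
    -(ze * R ^ 2 + 9 * k ^ 4 / ze * (S ^ 2 + a ^ 2)) ≤
      c1 * p1 + c2 * p2 + c3 * p3 + c4 * p4 + c5 * p5 := by
  have b : ∀ {c p q : ℝ}, |c| ≤ k → |p| ≤ q → -(k * q) ≤ c * p := fun {c p q} hc hp =>
    (abs_le.1 ((abs_mul c p).le.trans (mul_le_mul hc hp (abs_nonneg _) (by linarith)))).1
  have t : 0 ≤ S + a := by linarith
  have k0 : 0 ≤ k := by linarith
  have u1 : R * S + 2 * (R * T) ≤ 3 * k * (R * (S + a)) := by
    nlinarith [mul_le_mul_of_nonneg_left e hR, mul_nonneg hR ha, mul_nonneg hR hS,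
      mul_nonneg (sub_nonneg.2 k1) (mul_nonneg hR t)]
  have u2 : T * S ≤ k * (S + a) ^ 2 := by
    nlinarith [mul_le_mul_of_nonneg_right e hS, mul_nonneg k0 (mul_nonneg t ha)]
  have u3 : 3 * k ^ 2 * (R * (S + a)) ≤ ze * R ^ 2 + 9 / 4 * k ^ 4 / ze * (S + a) ^ 2 := by
    have : ze * R ^ 2 + 9 / 4 * k ^ 4 / ze * (S + a) ^ 2 - 3 * k ^ 2 * (R * (S + a)) =
        (ze * R - 3 / 2 * k ^ 2 * (S + a)) ^ 2 / ze := by field_simp; ring
    have := div_nonneg (sq_nonneg (ze * R - 3 / 2 * k ^ 2 * (S + a))) z0.le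
    linarith
  have u4 : k ^ 2 ≤ k ^ 4 / ze := by
    rw [le_div_iff₀ z0]
    nlinarith [mul_le_mul_of_nonneg_left z1 (sq_nonneg k), mul_nonneg (sq_nonneg k)
      (show 0 ≤ k ^ 2 - 1 by nlinarith)]
  have u5 : (S + a) ^ 2 ≤ 2 * (S ^ 2 + a ^ 2) := by nlinarith [sq_nonneg (S - a)]
  have u6 : 0 ≤ k ^ 4 / ze := by positivity
  have v1 := mul_le_mul_of_nonneg_left u1 k0
  have v2 := mul_le_mul_of_nonneg_left u2 k0
  have v3 := mul_le_mul_of_nonneg_right u4 (sq_nonneg (S + a))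
  have v4 := mul_le_mul_of_nonneg_left u5 u6
  have := b h1 q1
  have := b h2 q2
  have := b h3 q3
  have := b h4 q4
  have := b h5 q5
  have e1 : 9 / 4 * k ^ 4 / ze = 9 / 4 * (k ^ 4 / ze) := by ring
  have e2 : 9 * k ^ 4 / ze = 9 * (k ^ 4 / ze) := by ring
  rw [e1] at u3
  rw [e2]
  nlinarith [mul_nonneg u6 (add_nonneg (sq_nonneg S) (sq_nonneg a))]

end Vale.Agent.P354XI
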