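import Vale.Agent.P354XI.Mult
import Vale.Agent.P354XI.Vf

/-!
Real inequalities for the multiplier estimates, and constants which are uniform in (M, a).
-/

open Set Filter Topology

namespace Vale.Agent.P354XI

open Vale.Agent.P354XT
open Vale.Agent.P354BF (De rp)

theorem pd {c P q m0 m1 m2 : ℝ} (h0 : 0 < P + q)
    (h : c * (P + q) ≤ P * q - (m0 ^ 2 + m1 ^ 2 + m2 ^ 2)) (R A0 A1 A2 : ℝ) :
    c * (R ^ 2 + (A0 ^ 2 + A1 ^ 2 + A2 ^ 2)) ≤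
      P * R ^ 2 + q * (A0 ^ 2 + A1 ^ 2 + A2 ^ 2) - 2 * (m0 * A0 + m1 * A1 + m2 * A2) * R := by
  refine le_of_mul_le_mul_left ?_ h0
  have e := mul_le_mul_of_nonneg_right h
    (show 0 ≤ R ^ 2 + (A0 ^ 2 + A1 ^ 2 + A2 ^ 2) by positivity)
  have : 0 ≤ (P * R - (m0 * A0 + m1 * A1 + m2 * A2)) ^ 2 + (m0 * A1 - m1 * A0) ^ 2 +
    (m0 * A2 - m2 * A0) ^ 2 + (m1 * A2 - m2 * A1) ^ 2 + (q * A0 - m0 * R) ^ 2 +
    (q * A1 - m1 * R) ^ 2 + (q * A2 - m2 * R) ^ 2 := by positivity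
  refine sub_nonneg.1 ((add_nonneg (sub_nonneg.2 e) this).trans (le_of_eq ?_))
  ring

theorem gd_pos {c g c1 c2 P q m0 m1 m2 : ℝ} (c0 : 0 ≤ c) (g0 : 0 ≤ g) (h1 : g ≤ c1) (h2 : g ≤ c2)
    (h0 : 0 < P + q) (h : c * (P + q) ≤ P * q - (m0 ^ 2 + m1 ^ 2 + m2 ^ 2)) (R l A0 A1 A2 : ℝ) :
    c * g * (R ^ 2 + l ^ 2 + (A0 ^ 2 + A1 ^ 2 + A2 ^ 2)) ≤ gd c1 c2 P q m0 m1 m2 R l A0 A1 A2 := by
  have a := pd h0 h R A0 A1 A2
  have b := pd (P := q) (q := P) (c := c) (m0 := m0) (m1 := m1) (m2 := m2) (by linarith)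
    (by linarith) (-l) A0 A1 A2
  have a0 : 0 ≤ c * (R ^ 2 + (A0 ^ 2 + A1 ^ 2 + A2 ^ 2)) := by positivity
  have b0 : 0 ≤ c * ((-l) ^ 2 + (A0 ^ 2 + A1 ^ 2 + A2 ^ 2)) := by positivity
  have a1 := mul_le_mul h1 a a0 (g0.trans h1)
  have b1 := mul_le_mul h2 b b0 (g0.trans h2)
  have : 0 ≤ c * g * (A0 ^ 2 + A1 ^ 2 + A2 ^ 2) := by positivity
  refine sub_nonneg.1 ((add_nonneg (add_nonneg (sub_nonneg.2 a1) (sub_nonneg.2 b1)) this).trans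
    (le_of_eq ?_))
  rw [gd]; ring

theorem gd_abs {b c1 c2 P q m0 m1 m2 : ℝ} (h1 : |c1| ≤ 2) (h2 : |c2| ≤ 2) (hP : |P| ≤ b)
    (hq : |q| ≤ b) (hm : m0 ^ 2 + m1 ^ 2 + m2 ^ 2 ≤ b ^ 2) (R l A0 A1 A2 : ℝ) :
    |gd c1 c2 P q m0 m1 m2 R l A0 A1 A2| ≤
      8 * b * (R ^ 2 + l ^ 2 + (A0 ^ 2 + A1 ^ 2 + A2 ^ 2)) := by
  have b0 : 0 ≤ b := (abs_nonneg _).trans hP
  have k : ∀ {P q : ℝ} (R : ℝ), |P| ≤ b → |q| ≤ b → |P * R ^ 2 + q * (A0 ^ 2 + A1 ^ 2 + A2 ^ 2) -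
      2 * (m0 * A0 + m1 * A1 + m2 * A2) * R| ≤ 2 * b * (R ^ 2 + (A0 ^ 2 + A1 ^ 2 + A2 ^ 2)) := by
    intro P q R hP hq
    have s : (m0 * A0 + m1 * A1 + m2 * A2) ^ 2 ≤ b ^ 2 * (A0 ^ 2 + A1 ^ 2 + A2 ^ 2) := by
      refine le_trans ?_ (mul_le_mul_of_nonneg_right hm (by positivity))
      nlinarith [sq_nonneg (m0 * A1 - m1 * A0), sq_nonneg (m0 * A2 - m2 * A0),
        sq_nonneg (m1 * A2 - m2 * A1)]
    generalize m0 * A0 + m1 * A1 + m2 * A2 = s0 at s ⊢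
    have a0 : 0 ≤ A0 ^ 2 + A1 ^ 2 + A2 ^ 2 := by positivity
    generalize A0 ^ 2 + A1 ^ 2 + A2 ^ 2 = a at s a0 ⊢
    have t := abs_le_of_sq_le_sq' (a := 2 * s0 * R) (b := b * (R ^ 2 + a))
      (by nlinarith [mul_le_mul_of_nonneg_right s (sq_nonneg R),
        mul_nonneg (sq_nonneg b) (sq_nonneg (R ^ 2 - a))]) (by positivity)
    have u1 := mul_le_mul_of_nonneg_right (abs_le.1 hP).1 (sq_nonneg R)
    have u2 := mul_le_mul_of_nonneg_right (abs_le.1 hP).2 (sq_nonneg R)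
    have u3 := mul_le_mul_of_nonneg_right (abs_le.1 hq).1 a0
    have u4 := mul_le_mul_of_nonneg_right (abs_le.1 hq).2 a0
    exact abs_le.2 ⟨by linarith [t.2], by linarith [t.1]⟩
  have a := mul_le_mul h1 (k R hP hq) (abs_nonneg _) zero_le_two
  have a' := mul_le_mul h2 (k (-l) hq hP) (abs_nonneg _) zero_le_two
  rw [← abs_mul] at a a'
  refine le_trans (le_of_eq (congrArg _ ?_)) ((abs_add_le _ _).trans ((add_le_add a a').trans ?_))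
  · rw [gd]; ring
  · nlinarith [mul_nonneg b0 (sq_nonneg R), mul_nonneg b0 (sq_nonneg l)]

/-- Upper bounds. -/
structure Up (k rm Rb N M a : ℝ) (F : ℝ → ℝ) : Prop where
  k1 : 1 ≤ k
  ha : |a| ≤ k
  hM : |M| ≤ k
  hb : Rb ≤ k
  hm : 1 ≤ k * rm
  hN : 4 * N + 2 ≤ k
  hF : ∀ r, rm ≤ r → r ≤ Rb → F r ≤ k

/-- Lower bounds. -/
structure Lo (c rm rI Rs Rb M a : ℝ) (F : ℝ → ℝ) : Prop where
  c0 : 0 < c
  h1 : ∀ r, rm ≤ r → r ≤ Rb → c ≤ F r ∧ c ≤ (2 * (r ^ 2 + a ^ 2) - De M a r * F r) * F r - a ^ 2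
  h2 : ∀ r, rm ≤ r → r ≤ rI → De M a r ≤ -c
  h3 : ∀ r, Rs ≤ r → r ≤ Rb → c ≤ F r - 1 ∧
    c ≤ (2 * (r ^ 2 + a ^ 2) - De M a r * F r + De M a r) * (F r - 1) - a ^ 2

/-- The gradient part of the current. -/
theorem pt {k c rm rI Rs Rb N M a r : ℝ} {F : ℝ → ℝ} (U : Up k rm Rb N M a F)
    (L : Lo c rm rI Rs Rb M a F) (r1 : rm ≤ r) (r2 : r ≤ Rb) (hD : |De M a r| ≤ 4 * k ^ 2)
    {e0 e1 e2 pt pr al be ga z bd : ℝ} (he : e0 ^ 2 + e1 ^ 2 + e2 ^ 2 ≤ 1) (a0 : 0 ≤ al)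
    (b0 : 0 ≤ be) (g0 : 0 ≤ ga) (hb : be ≠ 0 → r ≤ rI) (hg : ga ≠ 0 → Rs ≤ r)
    (d1 : |pt + al + ga| ≤ bd) (d2 : |pr - be - z + ga| ≤ bd) (R l A0 A1 A2 : ℝ) :
    (c / (104 * k ^ 5) * (al + be + ga) - 208 * k ^ 3 * bd) *
        (R ^ 2 + l ^ 2 + (A0 ^ 2 + A1 ^ 2 + A2 ^ 2)) +
      z * (-((1 + 1 / (4 * k ^ 2) * De M a r / 2) * De M a r) * R ^ 2 +
        (A0 ^ 2 + A1 ^ 2 + A2 ^ 2) + 1 / (4 * k ^ 2) / 2 * l ^ 2) ≤
    gd (1 + 1 / (4 * k ^ 2) * De M a r / 2) (1 / (4 * k ^ 2) / 2)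
      (-(De M a r * (pr - F r * pt) + 2 * ((r ^ 2 + a ^ 2) * pt))) (pr - F r * pt)
      (a * e0 * pt) (a * e1 * pt) (a * e2 * pt) R l A0 A1 A2 := by
  have k1 := U.k1
  have c0 := L.c0
  have f1 := U.hF r r1 r2
  obtain ⟨f2, f3⟩ := L.h1 r r1 r2
  have l2 := fun e => L.h2 r r1 (hb e)
  have l3 := fun e => L.h3 r (hg e) r2
  have r0 : 0 < r := lt_of_lt_of_le (by nlinarith [U.hm]) r1
  have w : r ^ 2 + a ^ 2 ≤ 2 * k ^ 2 := by
    nlinarith [U.hb, sq_abs a, abs_nonneg a, U.ha]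
  have w0 : 0 ≤ r ^ 2 + a ^ 2 := by positivity
  have aa : a ^ 2 ≤ k ^ 2 := by nlinarith [sq_abs a, abs_nonneg a, U.ha]
  have m : (-(a * e0)) ^ 2 + (-(a * e1)) ^ 2 + (-(a * e2)) ^ 2 ≤ a ^ 2 := by
    nlinarith [mul_le_mul_of_nonneg_left he (sq_nonneg a)]
  generalize De M a r = D at *
  generalize F r = f at *
  generalize r ^ 2 + a ^ 2 = W at *
  obtain ⟨D1, D2⟩ := abs_le.1 hD
  have k2 : k ≤ k ^ 2 := le_self_pow₀ k1 (by norm_num)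
  have k3 : k ^ 2 ≤ k ^ 3 := pow_le_pow_right₀ k1 (by norm_num)
  have Df : |D * f| ≤ 4 * k ^ 3 := by
    rw [abs_mul, abs_of_pos (c0.trans_le f2)]
    exact (mul_le_mul hD f1 (by linarith) (by positivity)).trans (le_of_eq (by ring))
  obtain ⟨D3, D4⟩ := abs_le.1 Df
  have g1 : 1 / (4 * k ^ 2) ≤ 1 := by rw [div_le_one (by positivity)]; linarith
  have g2 : 0 < 1 / (4 * k ^ 2) := by positivity
  have g3 : |1 / (4 * k ^ 2) * D| ≤ 1 := by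
    rw [abs_mul, abs_of_pos g2, one_div, inv_mul_le_iff₀ (by positivity)]; linarith
  have ce : c / (104 * k ^ 5) = c / (13 * k ^ 3) * (1 / (4 * k ^ 2) / 2) := by field_simp; ring
  rw [ce]
  generalize 1 / (4 * k ^ 2) = g at *
  obtain ⟨g4, g5⟩ := abs_le.1 g3
  have c1 : 0 ≤ c / (13 * k ^ 3) := by positivity
  have cc : ∀ {x : ℝ}, x ≤ 13 * k ^ 3 → c / (13 * k ^ 3) * x ≤ c := fun e =>
    (mul_le_mul_of_nonneg_left e c1).trans (le_of_eq (by field_simp))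
  have P := fun {P q m0 m1 m2 : ℝ} => @gd_pos _ (g / 2) (1 + g * D / 2) (g / 2) P q m0 m1 m2 c1
    (by linarith) (by linarith) le_rfl
  have Q := fun {P q m0 m1 m2 : ℝ} => @gd_abs (13 * k ^ 3) (1 + g * D / 2) (g / 2) P q m0 m1 m2
    (abs_le.2 ⟨by linarith, by linarith⟩) (abs_le.2 ⟨by linarith, by linarith⟩)
  have p0 : 0 < 2 * W - D * f :=
    (pos_iff_pos_of_mul_pos (by linarith [sq_nonneg a])).2 (c0.trans_le f2)
  have q1 := mul_le_mul_of_nonneg_left (P (P := 2 * W - D * f) (q := f) (m0 := -(a * e0))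
    (m1 := -(a * e1)) (m2 := -(a * e2)) (by linarith)
    ((cc (by linarith)).trans (by linarith [m])) R l A0 A1 A2) a0
  have q2 : be * (c / (13 * k ^ 3) * (g / 2) * (R ^ 2 + l ^ 2 + (A0 ^ 2 + A1 ^ 2 + A2 ^ 2))) ≤
      be * gd (1 + g * D / 2) (g / 2) (-D) 1 0 0 0 R l A0 A1 A2 := by
    by_cases e : be = 0
    · rw [e, zero_mul, zero_mul]
    · exact mul_le_mul_of_nonneg_left (P (by linarith [l2 e])
        ((cc (by linarith)).trans (by linarith [l2 e])) R l A0 A1 A2) b0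
  have q3 : ga * (c / (13 * k ^ 3) * (g / 2) * (R ^ 2 + l ^ 2 + (A0 ^ 2 + A1 ^ 2 + A2 ^ 2))) ≤
      ga * gd (1 + g * D / 2) (g / 2) (2 * W - D * f + D) (f - 1) (-(a * e0))
      (-(a * e1)) (-(a * e2)) R l A0 A1 A2 := by
    by_cases e : ga = 0
    · rw [e, zero_mul, zero_mul]
    · have p1 : 0 < 2 * W - D * f + D := (pos_iff_pos_of_mul_pos
        (by linarith [sq_nonneg a, (l3 e).2])).2 (c0.trans_le (l3 e).1)
      exact mul_le_mul_of_nonneg_left (P (by linarith [(l3 e).1])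
        ((cc (by linarith)).trans (by linarith [(l3 e).2, m])) R l A0 A1 A2) g0
  have mu : ∀ {p q s t : ℝ}, |p| ≤ s → |q| ≤ t → |p * q| ≤ s * t := fun a b =>
    (abs_mul _ _).le.trans (mul_le_mul a b (abs_nonneg _) ((abs_nonneg _).trans a))
  have q4 := (abs_le.1 (mu d1 (Q (P := 2 * W - D * f) (q := f) (abs_le.2 ⟨by linarith, by linarith⟩)
    (abs_le.2 ⟨by linarith, by linarith⟩) (m.trans (by nlinarith)) R l A0 A1 A2))).2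
  have q5 := (abs_le.1 (mu d2 (Q (P := -D) (q := 1) (m0 := 0) (m1 := 0) (m2 := 0)
    (abs_le.2 ⟨by linarith, by linarith⟩) (abs_le.2 ⟨by linarith, by linarith⟩)
    (by simpa using sq_nonneg _) R l A0 A1 A2))).1
  refine sub_nonneg.1 ((add_nonneg (add_nonneg (add_nonneg (sub_nonneg.2 q1) (sub_nonneg.2 q2))
    (sub_nonneg.2 q3)) (add_nonneg (sub_nonneg.2 q4) (sub_nonneg.2 q5))).trans (le_of_eq ?_))
  simp only [gd]; ring

theorem unif {g : ℝ × ℝ × ℝ → ℝ} (hg : Continuous g) {K : Set ℝ} (hK : IsCompact K) {M0 a0 : ℝ}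
    (e : ∀ r ∈ K, 0 < g (M0, a0, r)) :
    ∃ c, 0 < c ∧ ∀ᶠ m : ℝ × ℝ in 𝓝 (M0, a0), ∀ r ∈ K, c ≤ g (m.1, m.2, r) := by
  obtain ⟨b, b0, hb⟩ := hK.exists_forall_le' (f := fun r => g (M0, a0, r))
    (Continuous.continuousOn (by fun_prop)) e
  refine ⟨b / 2, by linarith, hK.eventually_forall_of_forall_eventually fun r hr => ?_⟩
  have c : Continuous fun z : (ℝ × ℝ) × ℝ => g (z.1.1, z.1.2, z.2) := by fun_prop
  exact (c.continuousAt.eventually (lt_mem_nhds (a := b / 2) (by linarith [hb r hr]))).mono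
    fun _ e => e.le

theorem ex_dl {p : ℝ × ℝ → Prop} {M0 a0 : ℝ} (e : ∀ᶠ m in 𝓝 (M0, a0), p m) :
    ∃ dl, 0 < dl ∧ ∀ M a, |M - M0| < dl → |a - a0| < dl → p (M, a) := by
  obtain ⟨d, d0, hd⟩ := Metric.eventually_nhds_iff.1 e
  exact ⟨d, d0, fun M a h1 h2 => hd (by
    rw [Prod.dist_eq, Real.dist_eq, Real.dist_eq]; exact max_lt h1 h2)⟩

theorem De_neg {M a r : ℝ} (ha : |a| < M) (h1 : M < r) (h2 : r < rp M a) : De M a r < 0 := by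
  have h : 0 ≤ M ^ 2 - a ^ 2 := by nlinarith [sq_abs a, abs_nonneg a]
  have h3 := Real.sq_sqrt h
  unfold rp at h2
  unfold De
  nlinarith

variable {M0 a0 rm : ℝ} {f : ℝ × ℝ × ℝ → ℝ}

theorem ex_up (ha : |a0| < M0) (h : Slope M0 a0 rm f) (N Rb : ℝ) :
    ∃ k, ∀ᶠ m : ℝ × ℝ in 𝓝 (M0, a0), Up k rm Rb N m.1 m.2 fun r => f (m.1, m.2, r) := by
  have hf := h.sm.continuous
  have r0 : 0 < rm := ((abs_nonneg _).trans_lt ha).trans h.lo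
  obtain ⟨b, hb⟩ := (isCompact_Icc (a := rm) (b := Rb)).exists_bound_of_continuousOn
    (f := fun r => f (M0, a0, r)) (Continuous.continuousOn (by fun_prop))
  obtain ⟨c, c0, e⟩ := unif (g := fun p => b + 1 - f p) (by fun_prop) isCompact_Icc
    (M0 := M0) (a0 := a0) fun r hr => by linarith [(abs_le.1 (hb r hr)).2]
  have e1 : ∀ᶠ m : ℝ × ℝ in 𝓝 (M0, a0), |m.1| < |M0| + 1 :=
    (by fun_prop : Continuous fun m : ℝ × ℝ => |m.1|).continuousAt.eventually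
      (gt_mem_nhds (by simp))
  have e2 : ∀ᶠ m : ℝ × ℝ in 𝓝 (M0, a0), |m.2| < |a0| + 1 :=
    (by fun_prop : Continuous fun m : ℝ × ℝ => |m.2|).continuousAt.eventually
      (gt_mem_nhds (by simp))
  have i0 : 0 < rm⁻¹ := inv_pos.2 r0
  refine ⟨2 + |a0| + |M0| + |Rb| + rm⁻¹ + 4 * |N| + |b|, ?_⟩
  have n1 := abs_nonneg a0
  have n2 := abs_nonneg M0
  have n3 := abs_nonneg Rb
  have n4 := abs_nonneg N
  have n5 := abs_nonneg b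
  filter_upwards [e, e1, e2] with m e e1 e2
  exact ⟨by linarith, by linarith, by linarith, by linarith [le_abs_self Rb],
    (le_of_eq (inv_mul_cancel₀ r0.ne').symm).trans (mul_le_mul_of_nonneg_right (by linarith) r0.le),
    by linarith [le_abs_self N], fun r h1 h2 => by linarith [e r ⟨h1, h2⟩, le_abs_self b]⟩

theorem ex_lo (ha : |a0| < M0) (h : Slope M0 a0 rm f) : ∃ Rs, ∀ rI Rb, rI < rp M0 a0 →
    ∃ c, 0 < c ∧ c ≤ 1 ∧ ∀ᶠ m : ℝ × ℝ in 𝓝 (M0, a0),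
      Lo c rm rI Rs Rb m.1 m.2 fun r => f (m.1, m.2, r) := by
  have hf := h.sm.continuous
  obtain ⟨R, hR⟩ := h.far
  have m0 : 0 < M0 := (abs_nonneg _).trans_lt ha
  refine ⟨max (max R rm) (4 * M0), fun rI Rb hI => ?_⟩
  obtain ⟨c1, p1, e1⟩ := unif hf (isCompact_Icc (a := rm) (b := Rb)) (M0 := M0) (a0 := a0)
    fun r hr => (h.adm r hr.1).1
  obtain ⟨c2, p2, e2⟩ := unif (g := fun p => (2 * (p.2.2 ^ 2 + p.2.1 ^ 2) -
    De p.1 p.2.1 p.2.2 * f p) * f p - p.2.1 ^ 2) (by unfold De; fun_prop)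
    (isCompact_Icc (a := rm) (b := Rb)) (M0 := M0) (a0 := a0) fun r hr => by
      linarith [(h.adm r hr.1).2]
  obtain ⟨c3, p3, e3⟩ := unif (g := fun p => -De p.1 p.2.1 p.2.2) (by unfold De; fun_prop)
    (isCompact_Icc (a := rm) (b := rI)) (M0 := M0) (a0 := a0) fun r hr =>
      neg_pos.2 (De_neg ha (h.lo.trans_le hr.1) (hr.2.trans_lt hI))
  obtain ⟨c4, p4, e4⟩ := unif (g := fun p => f p - 1) (by fun_prop)
    (isCompact_Icc (a := max (max R rm) (4 * M0)) (b := Rb)) (M0 := M0) (a0 := a0) fun r hr => by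
      linarith [hR r (max_le_iff.1 (max_le_iff.1 hr.1).1).1]
  obtain ⟨c5, p5, e5⟩ := unif (g := fun p => (2 * (p.2.2 ^ 2 + p.2.1 ^ 2) -
    De p.1 p.2.1 p.2.2 * f p + De p.1 p.2.1 p.2.2) * (f p - 1) - p.2.1 ^ 2) (by unfold De; fun_prop)
    (isCompact_Icc (a := max (max R rm) (4 * M0)) (b := Rb)) (M0 := M0) (a0 := a0) fun r hr => by
      obtain ⟨⟨u1, u2⟩, u3⟩ := (max_le_iff.1 hr.1).imp_left max_le_iff.1
      obtain ⟨v1, v2⟩ := h.adm r u2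
      have v3 := hR r u1
      have v4 : 0 < 2 * (r ^ 2 + a0 ^ 2) - De M0 a0 r * f (M0, a0, r) :=
        (pos_iff_pos_of_mul_pos ((sq_nonneg _).trans_lt v2)).1 v1
      have v5 : 2 * a0 ^ 2 < De M0 a0 r := by
        unfold De; nlinarith [sq_abs a0, abs_nonneg a0]
      nlinarith [sq_nonneg a0]
  refine ⟨min 1 (min (min c1 c2) (min c3 (min c4 c5))), by positivity, min_le_left _ _, ?_⟩
  filter_upwards [e1, e2, e3, e4, e5] with m e1 e2 e3 e4 e5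
  have : ∀ {x y : ℝ}, y ≤ x → min 1 y ≤ x := fun e => (min_le_right _ _).trans e
  refine ⟨by positivity, fun r h1 h2 => ⟨this (le_trans (by simp) (e1 r ⟨h1, h2⟩)),
    this (le_trans (by simp) (e2 r ⟨h1, h2⟩))⟩, fun r h1 h2 => le_neg.1
    (this (le_trans (by simp) (e3 r ⟨h1, h2⟩))), fun r h1 h2 =>
    ⟨this (le_trans (by simp) (e4 r ⟨h1, h2⟩)), this (le_trans (by simp) (e5 r ⟨h1, h2⟩))⟩⟩

end Vale.Agent.P354XI
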