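import Vale.Agent.P354XI.MBr
import Vale.Agent.P354XI.MRe

/-!
Weighted integrals, the comparison of the null frame with the letters, and the perturbation.
-/

open scoped ContDiff
open Set

namespace Vale.Agent.P354XI

open Vale.Agent.P354XG (Der D_mul D_add D_sub D_neg D_alg D_num D_one D_zero)
open Vale.Agent.P354XT Vale.Agent.P354YF Ibp

variable {A : Type} [CommRing A] [Algebra ℂ A] {Φ : Fld A}

/-- Smooth weights which vanish off S. -/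
def Wv (S : Set (ℝ × ℝ)) (w : ℝ × ℝ → ℝ) : Prop := ContDiff ℝ ∞ w ∧ ∀ p, p ∉ S → w p = 0

/-- The tangential density. -/
noncomputable def dT (Φ : Fld A) (M a : ℝ) (u : A) : A :=
  Φ.sq ((kw Φ M a).lt u) + ∑ i, Φ.sq ((kw Φ M a).Ad i u)

/-- The multiplier. -/
noncomputable def mY (Φ : Fld A) (M a g : ℝ) (u : A) : A := rl A g * (kw Φ M a).S u - Φ.R u

theorem jq_eq (u : A) : Φ.jq 1 u = P354YF.sq Φ.B.c Φ.X 1 u := by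
  rw [Fld.jq, Fld.lv, words_one, Finset.sum_insert (by simp),
    Finset.sum_image fun a _ b _ e => by simpa using e]
  rfl

theorem Jw_add (w : ℝ × ℝ → ℝ) (F F' : A) : Jw Φ w (F + F') = Jw Φ w F + Jw Φ w F' := by
  rw [Jw, mul_add, J_add]; rfl

theorem fin_le {m B η eG r t u uG f jG jb jp X : ℝ} (m0 : 0 < m) (m1 : m ≤ 1) (B1 : 1 ≤ B)
    (h0 : η * (2 * (1 + B)) ≤ m ^ 2) (p1 : 0 ≤ eG) (p3 : 0 ≤ t) (p4 : 0 ≤ u)
    (p5 : 0 ≤ f) (p6 : 0 ≤ jG) (p7 : 0 ≤ jb) (p8 : 0 ≤ jp) (p9 : 0 ≤ X) (p2 : 0 ≤ r)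
    (h1 : m * (eG + r + t) ≤ B * (B * jb) + X + B * (f + u) + η * (jp + jG + jb))
    (h2 : m * uG ≤ B * jb + r + u) (h3 : jG + jp ≤ uG + u + B * (eG + r + t)) :
    jG + jp ≤ 2 * (1 + B) ^ 3 * 2 / m ^ 2 * (jb + u + f + X) := by
  rw [div_mul_eq_mul_div, le_div_iff₀ (by positivity)]
  have a1 := mul_le_mul_of_nonneg_left h3 (sq_nonneg m)
  have a2 := mul_le_mul_of_nonneg_left h2 m0.le
  have a3 : m * r + B * m * (m * (eG + r + t)) ≤ (1 + B) * (m * (eG + r + t)) := by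
    have : 0 ≤ B * (1 - m) * (m * (eG + r + t)) := by have := sub_nonneg.2 m1; positivity
    nlinarith [mul_nonneg m0.le p1, mul_nonneg m0.le p3]
  have a4 := mul_le_mul_of_nonneg_left h1 (show 0 ≤ 1 + B by linarith)
  have a5 := mul_le_mul_of_nonneg_right h0 (show 0 ≤ jp + jG + jb by linarith)
  have a6 : m * (B * jb) ≤ B * jb := mul_le_of_le_one_left (by positivity) m1
  have a7 : m * u ≤ u := mul_le_of_le_one_left p4 m1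
  have m2 : m ^ 2 ≤ 1 := pow_le_one₀ m0.le m1
  have a8 : m ^ 2 * u ≤ u := mul_le_of_le_one_left p4 m2
  have a9 : m ^ 2 * jb ≤ jb := mul_le_of_le_one_left p7 m2
  obtain ⟨b, rfl⟩ : ∃ b, B = 1 + b := ⟨B - 1, by ring⟩
  have b0 : 0 ≤ b := by linarith
  have : 0 ≤ b * jb + b ^ 2 * jb + b ^ 3 * jb := by positivity
  have : 0 ≤ b * u + b ^ 2 * u + b ^ 3 * u := by positivity
  have : 0 ≤ b * f + b ^ 2 * f + b ^ 3 * f := by positivity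
  have : 0 ≤ b * X + b ^ 2 * X + b ^ 3 * X := by positivity
  have : 0 ≤ b * jb := by positivity
  have : 0 ≤ b ^ 2 * jb := by positivity
  have : 0 ≤ b * u := by positivity
  have : 0 ≤ b ^ 2 * u := by positivity
  have : 0 ≤ b * f := by positivity
  have : 0 ≤ b ^ 2 * f := by positivity
  have : 0 ≤ b * X := by positivity
  have : 0 ≤ b ^ 2 * X := by positivity
  linarith

theorem sq2 {p q r : ℝ} (p0 : 0 ≤ p) (e : p ≤ q + r) : p ^ 2 ≤ 2 * q ^ 2 + 2 * r ^ 2 := by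
  nlinarith [pow_le_pow_left₀ p0 e 2, sq_nonneg (q - r)]

theorem conv_re {k T R S l A0 A1 A2 L0 L1 L2 D Y u0' : ℝ} (k1 : 1 ≤ k)
    (s : S ^ 2 + A2 ^ 2 ≤ l ^ 2 + D ^ 2 * R ^ 2 + (A0 ^ 2 + A1 ^ 2 + A2 ^ 2))
    (s1 : D ^ 2 * R ^ 2 ≤ 16 * k ^ 4 * R ^ 2) (T2 : T ^ 2 ≤ (k ^ 3 * (S + A2)) ^ 2)
    (l2 : l ^ 2 ≤ (4 * k ^ 2 * (R + T + L2)) ^ 2) (y : Y ^ 2 ≤ 2 * S ^ 2 + 2 * R ^ 2)
    (a0 : A0 ^ 2 ≤ 2 * L0 ^ 2 + 2 * (k * T) ^ 2) (a1 : A1 ^ 2 ≤ 2 * L1 ^ 2 + 2 * (k * T) ^ 2)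
    (a2 : A2 ^ 2 ≤ 2 * L2 ^ 2 + 2 * (k * T) ^ 2) (c0 : L0 ^ 2 ≤ 2 * A0 ^ 2 + 2 * (k * T) ^ 2)
    (c1 : L1 ^ 2 ≤ 2 * A1 ^ 2 + 2 * (k * T) ^ 2) (c2 : L2 ^ 2 ≤ 2 * A2 ^ 2 + 2 * (k * T) ^ 2) :
    u0' ^ 2 + (T ^ 2 + R ^ 2 + L0 ^ 2 + L1 ^ 2 + L2 ^ 2) ≤
      u0' ^ 2 + 241 * k ^ 12 * (R ^ 2 + (l ^ 2 + (A0 ^ 2 + A1 ^ 2 + A2 ^ 2))) ∧
    R ^ 2 + (l ^ 2 + (A0 ^ 2 + A1 ^ 2 + A2 ^ 2)) ≤
      57 * k ^ 4 * (u0' ^ 2 + (T ^ 2 + R ^ 2 + L0 ^ 2 + L1 ^ 2 + L2 ^ 2)) ∧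
    Y ^ 2 ≤ 36 * k ^ 4 * (R ^ 2 + (l ^ 2 + (A0 ^ 2 + A1 ^ 2 + A2 ^ 2))) := by
  have E0 : 0 ≤ R ^ 2 + (l ^ 2 + (A0 ^ 2 + A1 ^ 2 + A2 ^ 2)) := by positivity
  have k4 : 1 ≤ k ^ 4 := one_le_pow₀ k1
  have u1 : S ^ 2 + A2 ^ 2 ≤ 16 * k ^ 4 * (R ^ 2 + (l ^ 2 + (A0 ^ 2 + A1 ^ 2 + A2 ^ 2))) := by
    linarith [mul_le_mul_of_nonneg_right k4 (show 0 ≤ l ^ 2 + (A0 ^ 2 + A1 ^ 2 + A2 ^ 2) by
      positivity), sq_nonneg l, sq_nonneg A0, sq_nonneg A1, sq_nonneg A2]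
  have u0 : R ^ 2 ≤ R ^ 2 + (l ^ 2 + (A0 ^ 2 + A1 ^ 2 + A2 ^ 2)) := le_add_of_nonneg_right
    (by positivity)
  have u5 : A0 ^ 2 + A1 ^ 2 + A2 ^ 2 ≤ R ^ 2 + (l ^ 2 + (A0 ^ 2 + A1 ^ 2 + A2 ^ 2)) := by
    linarith [sq_nonneg R, sq_nonneg l]
  generalize hE : R ^ 2 + (l ^ 2 + (A0 ^ 2 + A1 ^ 2 + A2 ^ 2)) = E at *
  have u2 : T ^ 2 ≤ 32 * k ^ 10 * E := by
    have := mul_le_mul_of_nonneg_left u1 (show 0 ≤ 2 * k ^ 6 by positivity)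
    linarith [mul_nonneg (show 0 ≤ k ^ 6 by positivity) (sq_nonneg (S - A2))]
  have u3 := mul_le_mul_of_nonneg_left u2 (sq_nonneg k)
  have v1 := mul_le_mul_of_nonneg_right (pow_le_pow_right₀ k1 (show 10 ≤ 12 by norm_num)) E0
  have v2 := mul_le_mul_of_nonneg_right (one_le_pow₀ (n := 12) k1) E0
  have v3 := mul_le_mul_of_nonneg_right k4 E0
  refine ⟨by linarith, ?_, by linarith [sq_nonneg A2]⟩
  have w1 : (R + T + L2) ^ 2 ≤ 3 * (R ^ 2 + T ^ 2 + L2 ^ 2) := by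
    nlinarith [sq_nonneg (R - T), sq_nonneg (R - L2), sq_nonneg (T - L2)]
  have w2 := mul_le_mul_of_nonneg_left w1 (show 0 ≤ 16 * k ^ 4 by positivity)
  have w3 := fun y : ℝ => mul_le_mul_of_nonneg_right k4 (sq_nonneg y)
  have w4 := mul_le_mul_of_nonneg_right (pow_le_pow_right₀ k1 (show 2 ≤ 4 by norm_num))
    (sq_nonneg T)
  linarith [w3 R, w3 T, w3 L0, w3 L1, w3 L2, w3 (u0'), sq_nonneg R, sq_nonneg T,
    sq_nonneg L0, sq_nonneg L1, sq_nonneg L2, sq_nonneg (u0')]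

variable (h : Φ.Is)
include h

theorem Jw_list {S : Set (ℝ × ℝ)} (hS : IsCompact S) (sub : S ⊆ Φ.Om)
    (l : List (ℝ × (ℝ × ℝ → ℝ) × A)) (hl : ∀ q ∈ l, Wv S q.2.1) (e : ∀ x, Φ.pr x ∈ S →
      0 ≤ (l.map fun q => q.1 * (q.2.1 (Φ.pr x) * Φ.B.val x q.2.2)).sum) :
    0 ≤ (l.map fun q => q.1 * Jw Φ q.2.1 q.2.2).sum := by
  have k : ∃ f ∈ Φ.B.K, Φ.B.J f = (l.map fun q => q.1 * Jw Φ q.2.1 q.2.2).sum ∧ (∀ x,
      Φ.B.val x f = (l.map fun q => q.1 * (q.2.1 (Φ.pr x) * Φ.B.val x q.2.2)).sum) ∧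
      ∀ x, Φ.pr x ∉ S → Φ.B.val x f = 0 := by
    clear e
    induction l with
    | nil => exact ⟨0, Φ.B.K.zero_mem, J_zero, fun x => val_zero x, fun x _ => val_zero x⟩
    | cons p l ih =>
      obtain ⟨f, hf, e1, e2, e3⟩ := ih fun q hq => hl q (List.mem_cons_of_mem _ hq)
      obtain ⟨k1, k2⟩ := hl p List.mem_cons_self
      have v : ∀ x, Φ.B.val x (rl A p.1 * (Φ.fn p.2.1 * p.2.2) + f) =
          p.1 * (p.2.1 (Φ.pr x) * Φ.B.val x p.2.2) + Φ.B.val x f := fun x => by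
        rw [val_add, h.B.val_mul (h.B.re_rl _), h.B.val_rl, h.B.val_mul (h.re _ k1), val_fn h k1]
      refine ⟨rl A p.1 * (Φ.fn p.2.1 * p.2.2) + f, Φ.B.K.add_mem (Φ.B.K.mul_mem_left _
        (Φ.B.K.mul_mem_right _ (fnK h hS sub k1 k2))) hf, ?_, fun x => ?_, fun x hx => ?_⟩
      · rw [J_add, J_rl, e1, List.map_cons, List.sum_cons, Jw]
      · rw [v, e2, List.map_cons, List.sum_cons]
      · rw [v, e3 x hx, k2 _ hx]; ring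
  obtain ⟨f, hf, e1, e2, e3⟩ := k
  rw [← e1]
  refine h.B.mono f hf fun x => ?_
  by_cases c : Φ.pr x ∈ S
  · have := e x c; rwa [← e2] at this
  · exact (e3 x c).ge

theorem Jw_le {S : Set (ℝ × ℝ)} (hS : IsCompact S) (sub : S ⊆ Φ.Om) {w w' : ℝ × ℝ → ℝ}
    (hw : Wv S w) (hw' : Wv S w') {F F' : A} {c : ℝ} (e : ∀ x, Φ.pr x ∈ S →
      w (Φ.pr x) * Φ.B.val x F ≤ c * (w' (Φ.pr x) * Φ.B.val x F')) :
    Jw Φ w F ≤ c * Jw Φ w' F' := by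
  have := Jw_list h hS sub [(-1, w, F), (c, w', F')] (by simp [hw, hw']) fun x hx => by
    simp only [List.map_cons, List.map_nil, List.sum_cons, List.sum_nil]; linarith [e x hx]
  simp only [List.map_cons, List.map_nil, List.sum_cons, List.sum_nil] at this
  linarith

theorem Jw_pos {S : Set (ℝ × ℝ)} (hS : IsCompact S) (sub : S ⊆ Φ.Om) {w : ℝ × ℝ → ℝ}
    (hw : Wv S w) (p : ∀ p ∈ S, 0 ≤ w p) {F : A} (e : ∀ x, 0 ≤ Φ.B.val x F) : 0 ≤ Jw Φ w F := by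
  have := Jw_le h hS sub hw hw (F := 0) (F' := F) (c := 1) fun x hx => by
    rw [val_zero, mul_zero, one_mul]; exact mul_nonneg (p _ hx) (e x)
  rwa [Jw, mul_zero, J_zero, one_mul] at this

theorem val_dT (M a : ℝ) (x : Φ.B.Pt) (u : A) : Φ.B.val x (dT Φ M a u) =
    Φ.B.md x ((kw Φ M a).lt u) ^ 2 + (Φ.B.md x ((kw Φ M a).Ad 0 u) ^ 2 +
      Φ.B.md x ((kw Φ M a).Ad 1 u) ^ 2 + Φ.B.md x ((kw Φ M a).Ad 2 u) ^ 2) := by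
  simp only [dT, val_add, Fin.sum_univ_three, h.val_sq]

theorem zone {k rm Rb N M a : ℝ} (U : Up k rm Rb N M a Φ.f) {x : Φ.B.Pt} (r1 : rm ≤ (Φ.pr x).2)
    (r2 : (Φ.pr x).2 ≤ Rb) : (kw Φ M a).Zone Φ.B k x := by
  have := U.k1
  have e : Φ.B.val x (kw Φ M a).r = (Φ.pr x).2 := h.val_r x
  exact ⟨e ▸ r2.trans U.hb, e ▸ U.hm.trans (mul_le_mul_of_nonneg_left r1 (by linarith))⟩

/-- The null frame and the letters. -/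
theorem conv {k M a g : ℝ} (k1 : 1 ≤ k) (ha : |a| ≤ k) (hM : |M| ≤ k) (g0 : 0 ≤ g) (g1 : g ≤ 1)
    {x : Φ.B.Pt} (z : (kw Φ M a).Zone Φ.B k x) (u : A) :
    Φ.B.val x (Φ.jq 1 u) ≤ Φ.B.md x u ^ 2 +
      241 * k ^ 12 * (Φ.B.md x (Φ.R u) ^ 2 + Φ.B.val x (dT Φ M a u)) ∧
    Φ.B.md x (Φ.R u) ^ 2 + Φ.B.val x (dT Φ M a u) ≤ 57 * k ^ 4 * Φ.B.val x (Φ.jq 1 u) ∧
    Φ.B.md x (mY Φ M a g u) ^ 2 ≤ 36 * k ^ 4 * (Φ.B.md x (Φ.R u) ^ 2 + Φ.B.val x (dT Φ M a u)) := by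
  have K := kw_is h M a
  obtain ⟨b1, b2, -, b4⟩ := K.zone_bd k1 ha hM z
  have s := K.md_S x u
  have b5 := b4 u
  have ve := val_e h M a x
  have ae : ∀ i, Φ.B.md x ((kw Φ M a).ca * (kw Φ M a).e i * Φ.T u) ≤ k * Φ.B.md x (Φ.T u) :=
    fun i => by
      rw [md_mul, md_mul, h.B.md_re K.re_a, K.val_a, h.B.md_re (K.re_e i)]
      refine mul_le_mul_of_nonneg_right ((mul_le_mul ha (abs_le_one_iff_mul_self_le_one.2 ?_)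
        (abs_nonneg _) (by linarith)).trans (mul_one k).le) (md_nonneg _ _)
      fin_cases i <;> simp only [Fin.reduceFinMk, Fin.zero_eta, Fin.mk_one] <;>
        nlinarith [sq_nonneg (Φ.B.val x ((kw Φ M a).e 0)), sq_nonneg (Φ.B.val x ((kw Φ M a).e 1)),
          sq_nonneg (Φ.B.val x ((kw Φ M a).e 2))]
  have aL : ∀ i, Φ.B.md x ((kw Φ M a).Ad i u) ^ 2 ≤
      2 * Φ.B.md x (Φ.L i u) ^ 2 + 2 * (k * Φ.B.md x (Φ.T u)) ^ 2 := fun i =>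
    sq2 (md_nonneg _ _) (by rw [KW.Ad_ap]; exact (md_add _ _ _).trans (add_le_add le_rfl (ae i)))
  have La : ∀ i, Φ.B.md x (Φ.L i u) ^ 2 ≤
      2 * Φ.B.md x ((kw Φ M a).Ad i u) ^ 2 + 2 * (k * Φ.B.md x (Φ.T u)) ^ 2 := fun i =>
    sq2 (md_nonneg _ _) (le_trans (le_of_eq (congrArg _ (by rw [KW.Ad_ap]; exact
      (add_sub_cancel_right _ _).symm))) ((md_sub _ _ _).trans (add_le_add le_rfl (ae i))))
  have aa : a ^ 2 ≤ k ^ 2 := by nlinarith [sq_abs a, abs_nonneg a]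
  have k2 : k ≤ k ^ 2 := le_self_pow₀ k1 (by norm_num)
  have lt : Φ.B.md x ((kw Φ M a).lt u) ≤
      4 * k ^ 2 * (Φ.B.md x (Φ.R u) + Φ.B.md x (Φ.T u) + Φ.B.md x (Φ.L 2 u)) := by
    have w : |Φ.B.val x (kw Φ M a).W| ≤ 2 * k ^ 2 := by
      rw [K.val_W, abs_of_nonneg (by positivity)]
      nlinarith [sq_abs (Φ.B.val x (kw Φ M a).r), abs_nonneg (Φ.B.val x (kw Φ M a).r),
        show (kw Φ M a).a ^ 2 ≤ k ^ 2 from aa]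
    have e1 := md_add x ((kw Φ M a).De * Φ.R u) (2 * (kw Φ M a).S u)
    have e2 := md_add x ((kw Φ M a).W * Φ.T u) ((kw Φ M a).ca * Φ.L 2 u)
    rw [md_mul, md_mul, h.B.md_re K.re_De, h.B.md_re re_two, val_two, abs_two] at e1
    rw [md_mul, md_mul, h.B.md_re K.re_W, h.B.md_re K.re_a, K.val_a] at e2
    have e3 := mul_le_mul_of_nonneg_right b2 (md_nonneg x (Φ.R u))
    have e4 := mul_le_mul_of_nonneg_right w (md_nonneg x (Φ.T u))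
    have e5 := mul_le_mul_of_nonneg_right (show |(kw Φ M a).a| ≤ 2 * k ^ 2 from
      ha.trans (by linarith)) (md_nonneg x (Φ.L 2 u))
    have e6 : (kw Φ M a).S u = _ := KW.S_ap _ u
    have e7 : Φ.B.md x ((kw Φ M a).lt u) = _ := rfl
    rw [← show (kw Φ M a).S u = (kw Φ M a).W * Φ.T u + (kw Φ M a).ca * Φ.L 2 u from e6] at e2
    exact (show Φ.B.md x ((kw Φ M a).lt u) ≤ _ from e1).trans (by linarith)
  have y : Φ.B.md x (mY Φ M a g u) ^ 2 ≤ 2 * Φ.B.md x ((kw Φ M a).S u) ^ 2 +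
      2 * Φ.B.md x (Φ.R u) ^ 2 := sq2 (md_nonneg _ _) ((md_sub _ _ _).trans (add_le_add (by
        rw [md_mul, h.B.md_rl, abs_of_nonneg g0]
        exact mul_le_of_le_one_left (md_nonneg _ _) g1) le_rfl))
  have D2 : Φ.B.val x (kw Φ M a).De ^ 2 ≤ 16 * k ^ 4 := by
    nlinarith [sq_abs (Φ.B.val x (kw Φ M a).De), abs_nonneg (Φ.B.val x (kw Φ M a).De)]
  have T2 := pow_le_pow_left₀ (md_nonneg _ _) b5 2
  have l2 := pow_le_pow_left₀ (md_nonneg _ _) lt 2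
  have j : Φ.B.val x (Φ.jq 1 u) = Φ.B.md x u ^ 2 + (Φ.B.md x (Φ.T u) ^ 2 + Φ.B.md x (Φ.R u) ^ 2 +
      Φ.B.md x (Φ.L 0 u) ^ 2 + Φ.B.md x (Φ.L 1 u) ^ 2 + Φ.B.md x (Φ.L 2 u) ^ 2) := by
    rw [val_jq h, qq, sum5]; rfl
  have a0 := aL 0
  have a1 := aL 1
  have a2 := aL 2
  have c0 := La 0
  have c1 := La 1
  have c2 := La 2
  rw [j, val_dT h]
  change Φ.B.md x (Φ.T u) ^ 2 ≤ _ at T2
  change _ ≤ _ + _ * Φ.B.md x (Φ.R u) ^ 2 + _ at s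
  have s1 := mul_le_mul_of_nonneg_right D2 (sq_nonneg (Φ.B.md x (Φ.R u)))
  exact conv_re k1 s s1 T2 l2 y a0 a1 a2 c0 c1 c2

end Vale.Agent.P354XI
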