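import Vale.Agent.P354XI.MCore

/-!
The estimate in unit time and the red shift estimate.
-/

open scoped ContDiff
open Set Filter Topology

namespace Vale.Agent.P354XI

open Vale.Agent.P354XG (Der D_mul D_add D_sub D_neg D_alg D_num D_one D_zero)
open Vale.Agent.P354XT Vale.Agent.P354YF Ibp
open Vale.Agent.P354BF (De rp)

/-- The constants. -/
noncomputable def cm (k c la : ℝ) : ℝ := min (min (c / (104 * k ^ 5)) (la / 2)) c
noncomputable def cC (k c la : ℝ) : ℝ := 2 * (1 + 241 * k ^ 12 / la) ^ 3 * 2 / cm k c la ^ 2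
noncomputable def ce (k c la ka : ℝ) : ℝ :=
  cm k c la ^ 2 / (2 * (1 + 241 * k ^ 12 / la)) / (750 * (2 * k + ka + 2))

theorem cm_pos {k c la : ℝ} (k1 : 1 ≤ k) (c0 : 0 < c) (l0 : 0 < la) : 0 < cm k c la := by
  unfold cm; positivity
theorem cC_pos {k c la : ℝ} (k1 : 1 ≤ k) (c0 : 0 < c) (l0 : 0 < la) : 0 < cC k c la := by
  have := cm_pos k1 c0 l0
  unfold cC; positivity
theorem ce_pos {k c la ka : ℝ} (k1 : 1 ≤ k) (c0 : 0 < c) (l0 : 0 < la) (k0 : 0 ≤ ka) :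
    0 < ce k c la ka := by
  have := cm_pos k1 c0 l0
  unfold ce; positivity

variable {A : Type} [CommRing A] [Algebra ℂ A] {Φ : Fld A} {k c rm rI Rs Rb N M a ka eps : ℝ}
  {S : Set (ℝ × ℝ)} {φ G bd : ℝ × ℝ → ℝ} {del : Fin 5 → Fin 5 → A}

theorem Up.De {F : ℝ → ℝ} (U : Up k rm Rb N M a F) {r : ℝ} (r1 : rm ≤ r) (r2 : r ≤ Rb) :
    |De M a r| ≤ 4 * k ^ 2 ∧ |2 * r - 2 * M| ≤ 4 * k := by
  have k1 := U.k1
  have r0 : 0 < r := lt_of_lt_of_le (by nlinarith [U.hm]) r1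
  have r3 := r2.trans U.hb
  obtain ⟨a1, a2⟩ := abs_le.1 U.ha
  obtain ⟨m1, m2⟩ := abs_le.1 U.hM
  unfold P354BF.De
  exact ⟨abs_le.2 ⟨by nlinarith, by nlinarith⟩, abs_le.2 ⟨by linarith, by linarith⟩⟩

theorem core (h : Φ.Is) (U : Up k rm Rb N M a Φ.f) (L : Lo c rm rI Rs Rb M a Φ.f) {la s1 s2 s : ℝ}
    (D : Dk S rI Rs ka φ G bd) (C : Cut Φ S rm Rb (ce k c la ka) φ G bd del) (c1 : c ≤ 1)
    (k0 : 0 ≤ ka) (l0 : 0 < la) (l1 : la ≤ 1) (p1 : 0 ≤ s1) (p2 : 0 ≤ s2) (hs : |s| ≤ N)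
    (hN : |Φ.s| ≤ N) (H1 : ∀ r, rm ≤ r → r ≤ Rb → 2 * la + 9 * (20 * k ^ 4) ^ 4 / la * De M a r ^ 2 ≤
      -(ka * ((1 + 1 / (4 * k ^ 2) * De M a r / 2) * De M a r)) + (1 - 2 * s) * (2 * r - 2 * M) + s1)
    (H2 : la + 9 * (20 * k ^ 4) ^ 4 / la ≤ ka * (1 / (4 * k ^ 2) / 2) + s2) {u : A}
    (hu : u ∈ Φ.Sp) : Jw Φ G (Φ.jq 1 u) + Jw Φ φ (Φ.jq 1 u) ≤ cC k c la * (Jw Φ bd (Φ.jq 1 u) +
      Jw Φ φ (Φ.sq u) + Jw Φ φ (Φ.sq (Φ.P s Φ.s M a u + Φ.Q del u)) +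
      (s1 * Jw Φ φ (Φ.sq (Φ.R u)) + s2 * Jw Φ φ (dT Φ M a u))) := by
  have k1 := U.k1
  have c0 := L.c0
  have m0 := cm_pos k1 c0 l0
  have e0 := ce_pos k1 c0 l0 k0
  have g1 : 1 / (4 * k ^ 2) ≤ 1 := by
    rw [div_le_one (by positivity)]; nlinarith
  have t1 := step1 h U L D C k0 l0 l1 hs hN H1 H2 u
  have t2 := step2 h U D C l0 (by positivity) g1 (z := s ^ 2 - s) (by
    have := U.hN
    obtain ⟨u1, u2⟩ := abs_le.1 hs
    exact abs_le.2 ⟨by nlinarith, by nlinarith⟩) (Φ.P s Φ.s M a u + Φ.Q del u) u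
  have t3 := (abs_le.1 (step3 h U L D C c1 k0 e0.le u)).2
  have t4 := step4 h U L D C c1 k0 u
  rw [show (kw Φ M a).Op (1 - s) (2 * (1 - 2 * s)) (-(4 * Φ.s)) u = Φ.P s Φ.s M a u + Φ.Q del u -
    rl A (s ^ 2 - s) * u - Φ.Q del u by rw [P_eq h M a s hu]; ring, bil_sub_l] at t1
  have w1 : Wv S φ := ⟨D.s1, fun p hp => (C.out p hp).1⟩
  have w2 : Wv S G := ⟨D.s2, fun p hp => (C.out p hp).2.1⟩
  have w3 : Wv S bd := ⟨D.s3, fun p hp => (C.out p hp).2.2⟩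
  have n2 : ∀ p ∈ S, 0 ≤ G p := fun p e => (D.grad U L c1 k0 e (C.rad _ e).1 (C.rad _ e).2).1
  have n3 : ∀ p ∈ S, 0 ≤ bd p := fun p e => (D.grad U L c1 k0 e (C.rad _ e).1 (C.rad _ e).2).2.1
  have cv := fun x (e : Φ.pr x ∈ S) =>
    conv h k1 U.ha U.hM le_rfl zero_le_one (zone h U (C.rad _ e).1 (C.rad _ e).2) u
  have v1 : ∀ v x, 0 ≤ Φ.B.val x (Φ.sq v) := fun v x => by rw [h.val_sq]; positivity
  have v2 : ∀ x, 0 ≤ Φ.B.val x (dT Φ M a u) := fun x => by rw [val_dT h]; positivity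
  have v3 : ∀ x, 0 ≤ Φ.B.val x (Φ.jq 1 u) := fun x => h.lv_nonneg x _ _
  have P := fun {w} hw p {F} => Jw_pos h C.cp C.sub (w := w) hw p (F := F)
  have j1 : ∀ {w}, Wv S w → (∀ p ∈ S, 0 ≤ w p) → Jw Φ w (Φ.jq 1 u) ≤ Jw Φ w (Φ.sq u) +
      241 * k ^ 12 * (Jw Φ w (Φ.sq (Φ.R u)) + Jw Φ w (dT Φ M a u)) := fun {w} hw p => by
    have := Jw_list h C.cp C.sub [(-1, w, Φ.jq 1 u), (1, w, Φ.sq u),
      (241 * k ^ 12, w, Φ.sq (Φ.R u)), (241 * k ^ 12, w, dT Φ M a u)] (by simp [hw]) fun x e => by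
        simp only [List.map_cons, List.map_nil, List.sum_cons, List.sum_nil, h.val_sq]
        linarith [mul_le_mul_of_nonneg_left (cv x e).1 (p _ e)]
    simp only [List.map_cons, List.map_nil, List.sum_cons, List.sum_nil] at this
    linarith
  have j2 := Jw_le h C.cp C.sub w3 w3 (F := Φ.sq (Φ.R u) + dT Φ M a u) (F' := Φ.jq 1 u)
    (c := 57 * k ^ 4) fun x e => by
      rw [val_add, h.val_sq]; linarith [mul_le_mul_of_nonneg_left (cv x e).2.1 (n3 _ e)]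
  have j3 := Jw_le h C.cp C.sub w3 w3 (F := Φ.sq u) (F' := Φ.jq 1 u) (c := 1) fun x e => by
    rw [h.val_sq, one_mul]
    exact mul_le_mul_of_nonneg_left (h.le_lv x (fun J => Φ.wd J u) (J := []) (by simp)) (n3 _ e)
  rw [Jw_add] at j2
  have q1 := P w2 n2 (v1 (Φ.R u))
  have q2 := P w2 n2 v2
  have q3 := P w1 D.pos (v1 (Φ.R u))
  have q4 := P w1 D.pos v2
  have q5 := P w1 D.pos (v1 u)
  have q6 := P w1 D.pos (v1 (Φ.P s Φ.s M a u + Φ.Q del u))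
  have q7 := P w3 n3 v3
  have q8 := P w2 n2 (v1 u)
  have b1 : 241 * k ^ 12 ≤ 241 * k ^ 12 / la := le_div_self (by positivity) l0 l1
  have b2 : 144 * k ^ 8 / la ≤ 241 * k ^ 12 / la := div_le_div_of_nonneg_right
    (by nlinarith [pow_le_pow_right₀ k1 (show 8 ≤ 12 by norm_num), pow_pos (show 0 < k by linarith) 8])
    l0.le
  have b3 : 1 ≤ k ^ 12 := one_le_pow₀ k1
  have b4 : k ≤ k ^ 12 := le_self_pow₀ k1 (by norm_num)
  have b5 : k ^ 3 ≤ k ^ 12 := pow_le_pow_right₀ k1 (by norm_num)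
  have b6 : k ^ 4 ≤ k ^ 12 := pow_le_pow_right₀ k1 (by norm_num)
  have m1 : cm k c la ≤ c / (104 * k ^ 5) := (min_le_left _ _).trans (min_le_left _ _)
  have m2 : cm k c la ≤ la / 2 := (min_le_left _ _).trans (min_le_right _ _)
  have m3 : cm k c la ≤ c := min_le_right _ _
  have j4 := j1 w1 D.pos
  have j5 := j1 w2 n2
  have b7 : 208 * k ^ 3 * (57 * k ^ 4 * Jw Φ bd (Φ.jq 1 u)) ≤
      241 * k ^ 12 / la * (241 * k ^ 12 / la * Jw Φ bd (Φ.jq 1 u)) :=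
    mul_le_mul (by linarith) (mul_le_mul_of_nonneg_right (by linarith) q7) (by positivity)
      (by positivity)
  refine fin_le (η := 750 * (ce k c la ka * (2 * k + ka + 2))) (uG := Jw Φ G (Φ.sq u)) m0
    (m3.trans c1) (by linarith) (le_of_eq (by unfold ce; field_simp)) (add_nonneg q1 q2) q4 q5 q6
    (P w2 n2 v3) q7 (P w1 D.pos v3) (by positivity) q3 ?_ ?_ ?_
  · linarith [mul_le_mul_of_nonneg_right m1 (add_nonneg q1 q2),
      mul_le_mul_of_nonneg_right m2 (add_nonneg q3 q4),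
      mul_le_mul_of_nonneg_right b2 (add_nonneg q6 q5),
      mul_le_mul_of_nonneg_left j2 (show 0 ≤ 208 * k ^ 3 by positivity)]
  · linarith [mul_le_mul_of_nonneg_right m3 q8,
      mul_le_mul_of_nonneg_left j3 (show 0 ≤ 2 * k by positivity),
      mul_le_mul_of_nonneg_right (show 2 * k ≤ 241 * k ^ 12 / la by linarith) q7]
  · linarith [mul_le_mul_of_nonneg_right b1 (add_nonneg (add_nonneg q1 q2) (add_nonneg q3 q4))]

theorem Dec.dk (D : Dec S rI Rs φ G bd) (ka rm : ℝ) :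
    Dk S rI Rs ka (fun p => φ p * Real.exp (ka * (p.2 - rm)))
      (fun p => G p * Real.exp (ka * (p.2 - rm))) fun p => bd p * Real.exp (ka * (p.2 - rm)) := by
  have s0 : ContDiff ℝ ∞ fun r : ℝ => Real.exp (ka * (r - rm)) := by fun_prop
  have s : ContDiff ℝ ∞ fun p : ℝ × ℝ => Real.exp (ka * (p.2 - rm)) := by fun_prop
  refine ⟨D.s1.mul s, D.s2.mul s, D.s3.mul s, fun p e => mul_nonneg (D.pos p e) (Real.exp_pos _).le,
    fun p e => ?_⟩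
  obtain ⟨al, be, ga, a0, b0, g0, eG, hb, hg, d1, d2⟩ := D.dec p e
  have E := Real.exp_pos (ka * (p.2 - rm))
  have d : ∀ v, fderiv ℝ (fun p : ℝ × ℝ => φ p * Real.exp (ka * (p.2 - rm))) p v =
      (fderiv ℝ φ p v + ka * φ p * v.2) * Real.exp (ka * (p.2 - rm)) := fun v => by
    have : deriv (fun r : ℝ => Real.exp (ka * (r - rm))) p.2 = Real.exp (ka * (p.2 - rm)) * ka := by
      simpa using (((hasDerivAt_id p.2).sub_const rm).const_mul ka).exp.deriv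
    rw [fderiv_fun_mul (D.s1.differentiable (by simp) p) (s.differentiable (by simp) p),
      add_apply, smul_apply, smul_apply, Fld.fd_snd s0, this, smul_eq_mul, smul_eq_mul]
    ring
  have m : ∀ {x y : ℝ}, |x| ≤ bd p → y = x * Real.exp (ka * (p.2 - rm)) →
      |y| ≤ bd p * Real.exp (ka * (p.2 - rm)) := fun e1 e2 => by
    rw [e2, abs_mul, abs_of_pos E]; exact mul_le_mul_of_nonneg_right e1 E.le
  exact ⟨al * _, be * _, ga * _, mul_nonneg a0 E.le, mul_nonneg b0 E.le, mul_nonneg g0 E.le,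
    by rw [eG]; ring, fun v => hb (left_ne_zero_of_mul v), fun v => hg (left_ne_zero_of_mul v),
    m d1 (by rw [dt, d]; ring), m d2 (by rw [dr, d]; ring)⟩

theorem core2 (h : Φ.Is) (U : Up k rm Rb N M a Φ.f) (L : Lo c rm rI Rs Rb M a Φ.f)
    {la s1 s2 s : ℝ} (D : Dec S rI Rs φ G bd) (C : Cut Φ S rm Rb (ce k c la ka) φ G bd del)
    (c1 : c ≤ 1) (k0 : 0 ≤ ka) (l0 : 0 < la) (l1 : la ≤ 1) (p1 : 0 ≤ s1) (p2 : 0 ≤ s2)
    (hs : |s| ≤ N) (hN : |Φ.s| ≤ N)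
    (H1 : ∀ r, rm ≤ r → r ≤ Rb → 2 * la + 9 * (20 * k ^ 4) ^ 4 / la * De M a r ^ 2 ≤
      -(ka * ((1 + 1 / (4 * k ^ 2) * De M a r / 2) * De M a r)) + (1 - 2 * s) * (2 * r - 2 * M) + s1)
    (H2 : la + 9 * (20 * k ^ 4) ^ 4 / la ≤ ka * (1 / (4 * k ^ 2) / 2) + s2) {u : A}
    (hu : u ∈ Φ.Sp) : Jw Φ G (Φ.jq 1 u) + Jw Φ φ (Φ.jq 1 u) ≤
      cC k c la * Real.exp (ka * |Rb - rm|) * (Jw Φ bd (Φ.jq 1 u) +
      Jw Φ φ (Φ.sq u) + Jw Φ φ (Φ.sq (Φ.P s Φ.s M a u + Φ.Q del u)) +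
      (s1 * Jw Φ φ (Φ.sq (Φ.R u)) + s2 * Jw Φ φ (dT Φ M a u))) := by
  have D' := D.dk ka rm
  have := core h U L D' ⟨C.cp, C.sub, C.rad, fun p e => by simp [C.out p e], C.dre, C.del⟩ c1 k0
    l0 l1 p1 p2 hs hN H1 H2 hu
  have sE : ContDiff ℝ ∞ fun p : ℝ × ℝ => Real.exp (ka * (p.2 - rm)) := by fun_prop
  have k : ∀ {w F}, Wv S w → (∀ p ∈ S, 0 ≤ w p) → (∀ x, 0 ≤ Φ.B.val x F) →
      Jw Φ w F ≤ Jw Φ (fun p => w p * Real.exp (ka * (p.2 - rm))) F ∧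
      Jw Φ (fun p => w p * Real.exp (ka * (p.2 - rm))) F ≤ Real.exp (ka * |Rb - rm|) * Jw Φ w F := by
    intro w F hw p v
    have hw' : Wv S fun p => w p * Real.exp (ka * (p.2 - rm)) :=
      ⟨hw.1.mul sE, fun p e => by simp [hw.2 p e]⟩
    refine ⟨(Jw_le h C.cp C.sub hw hw' (c := 1) fun x e => ?_).trans (one_mul _).le,
      Jw_le h C.cp C.sub hw' hw fun x e => ?_⟩
    · have := Real.one_le_exp (mul_nonneg k0 (sub_nonneg.2 (C.rad _ e).1))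
      linarith [mul_le_mul_of_nonneg_right this (mul_nonneg (p _ e) (v x))]
    · have := Real.exp_le_exp.2 (mul_le_mul_of_nonneg_left ((sub_le_sub_right (C.rad _ e).2 rm).trans
        (le_abs_self _)) k0)
      linarith [mul_le_mul_of_nonneg_right this (mul_nonneg (p _ e) (v x))]
  have w1 : Wv S φ := ⟨D.s1, fun p hp => (C.out p hp).1⟩
  have w2 : Wv S G := ⟨D.s2, fun p hp => (C.out p hp).2.1⟩
  have w3 : Wv S bd := ⟨D.s3, fun p hp => (C.out p hp).2.2⟩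
  have n2 : ∀ p ∈ S, 0 ≤ G p := fun p e => by
    obtain ⟨al, be, ga, a0, b0, g0, eG, -⟩ := D.dec p e
    linarith
  have n3 : ∀ p ∈ S, 0 ≤ bd p := fun p e => by
    obtain ⟨al, be, ga, -, -, -, -, -, -, d1, -⟩ := D.dec p e
    exact (abs_nonneg _).trans d1
  have v1 : ∀ v x, 0 ≤ Φ.B.val x (Φ.sq v) := fun v x => by rw [h.val_sq]; positivity
  have v2 : ∀ x, 0 ≤ Φ.B.val x (dT Φ M a u) := fun x => by rw [val_dT h]; positivity
  have v3 : ∀ x, 0 ≤ Φ.B.val x (Φ.jq 1 u) := fun x => h.lv_nonneg x _ _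
  refine (add_le_add (k w2 n2 v3).1 (k w1 D.pos v3).1).trans (this.trans ?_)
  rw [mul_assoc]
  refine mul_le_mul_of_nonneg_left ?_ (cC_pos U.k1 L.c0 l0).le
  linarith [(k w3 n3 v3).2, (k w1 D.pos (v1 u)).2,
    (k w1 D.pos (v1 (Φ.P s Φ.s M a u + Φ.Q del u))).2,
    mul_le_mul_of_nonneg_left (k w1 D.pos (v1 (Φ.R u))).2 p1,
    mul_le_mul_of_nonneg_left (k w1 D.pos v2).2 p2]

theorem uni : UNI := by
  intro M0 a0 rm ha f hf
  obtain ⟨Rs, hR⟩ := ex_lo ha hf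
  refine ⟨Rs, fun N rI Rb hI => ?_⟩
  obtain ⟨k, eU⟩ := ex_up ha hf N Rb
  obtain ⟨c, c0, c1, eL⟩ := hR rI Rb hI
  obtain ⟨dl, d0, hd⟩ := ex_dl (eU.and eL)
  have k1 := eU.self_of_nhds.k1
  obtain ⟨z, hz⟩ : ∃ z, z = 9 * (20 * k ^ 4) ^ 4 / 1 := ⟨_, rfl⟩
  have z0 : 0 ≤ z := by rw [hz]; positivity
  have C0 := cC_pos k1 c0 one_pos
  have s0 : 0 ≤ 2 + z * (1 + 16 * k ^ 4) + 4 * k ^ 2 := by positivity
  refine ⟨cC k c 1 * (1 + (2 + z * (1 + 16 * k ^ 4) + 4 * k ^ 2) * (57 * k ^ 4)), dl, ce k c 1 0,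
    by positivity, d0, ce_pos k1 c0 one_pos le_rfl, ?_⟩
  intro M a h1 h2 A _ _ Φ h hN hF S ψ G bd del D C s hs u hu
  obtain ⟨U, L⟩ := hd M a h1 h2
  simp only [← hF] at U L
  have := core2 h U L D C c1 le_rfl one_pos le_rfl s0 s0 hs hN (fun r r1 r2 => by
    obtain ⟨e1, e2⟩ := U.De r1 r2
    have e3 : |1 - 2 * s| ≤ k := by
      have := U.hN
      obtain ⟨u1, u2⟩ := abs_le.1 hs
      exact abs_le.2 ⟨by linarith, by linarith⟩
    have e4 := (abs_le.1 ((abs_mul _ _).le.trans (mul_le_mul e3 e2 (abs_nonneg _) (by linarith)))).1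
    have e5 := pow_le_pow_left₀ (abs_nonneg _) e1 2
    rw [sq_abs] at e5
    rw [← hz]
    linarith [mul_le_mul_of_nonneg_left e5 z0]) (by
      rw [← hz]; linarith [show 0 ≤ z * k ^ 4 by positivity, sq_nonneg k]) hu
  rw [zero_mul, Real.exp_zero, mul_one] at this
  have w1 : Wv S ψ := ⟨D.s1, fun p hp => (C.out p hp).1⟩
  have w3 : Wv S bd := ⟨D.s3, fun p hp => (C.out p hp).2.2⟩
  have v3 : ∀ x, 0 ≤ Φ.B.val x (Φ.jq 1 u) := fun x => h.lv_nonneg x _ _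
  have q1 := Jw_pos h C.cp C.sub w1 D.pos v3
  have q2 := Jw_pos h C.cp C.sub w3 (fun p e => by
    obtain ⟨al, be, ga, -, -, -, -, -, -, d1, -⟩ := D.dec p e
    exact (abs_nonneg _).trans d1) v3
  have q3 := Jw_pos h C.cp C.sub w1 D.pos (F := Φ.sq (Φ.P s Φ.s M a u + Φ.Q del u)) fun x => by
    rw [h.val_sq]; positivity
  have j2 := Jw_le h C.cp C.sub w1 w1 (F := Φ.sq (Φ.R u) + dT Φ M a u) (F' := Φ.jq 1 u)
    (c := 57 * k ^ 4) fun x e => by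
      rw [val_add, h.val_sq]
      linarith [mul_le_mul_of_nonneg_left (conv h k1 U.ha U.hM le_rfl zero_le_one
        (zone h U (C.rad _ e).1 (C.rad _ e).2) u).2.1 (D.pos _ e)]
  have j3 := Jw_le h C.cp C.sub w1 w1 (F := Φ.sq u) (F' := Φ.jq 1 u) (c := 1) fun x e => by
    rw [h.val_sq, one_mul]
    exact mul_le_mul_of_nonneg_left (h.le_lv x (fun J => Φ.wd J u) (J := []) (by simp)) (D.pos _ e)
  rw [Jw_add] at j2
  refine (le_add_of_nonneg_right q1).trans (this.trans ?_)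
  rw [mul_assoc]
  refine mul_le_mul_of_nonneg_left ?_ C0.le
  generalize 2 + z * (1 + 16 * k ^ 4) + 4 * k ^ 2 = y at *
  linarith [mul_le_mul_of_nonneg_left j2 s0,
    mul_nonneg (mul_nonneg s0 (show 0 ≤ 57 * k ^ 4 by positivity)) (add_nonneg q2 q3)]

theorem red : RED := by
  intro M0 a0 rm ha f hf N
  obtain ⟨Rs, hR⟩ := ex_lo ha hf
  obtain ⟨k, eU⟩ := ex_up ha hf N (rp M0 a0 + 1)
  have U0 := eU.self_of_nhds
  have k1 := U0.k1
  have d0 : 0 < rm - M0 := sub_pos.2 hf.lo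
  obtain ⟨la, l0, l1, l2⟩ : ∃ la, 0 < la ∧ la ≤ 1 ∧ la ≤ (rm - M0) / 4 :=
    ⟨min 1 ((rm - M0) / 4), by positivity, min_le_left _ _, min_le_right _ _⟩
  obtain ⟨z, hz⟩ : ∃ z, z = 9 * (20 * k ^ 4) ^ 4 / la := ⟨_, rfl⟩
  have z0 : 0 ≤ z := by rw [hz]; positivity
  obtain ⟨ka, hk⟩ : ∃ ka, ka = 8 * k ^ 2 * (la + z) := ⟨_, rfl⟩
  have k0 : 0 < ka := by rw [hk]; positivity
  obtain ⟨η, η0, hη⟩ : ∃ η, 0 < η ∧ η * (3 / 2 * ka + 4 * k ^ 2 * z) = (rm - M0) / 2 :=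
    ⟨(rm - M0) / 2 / (3 / 2 * ka + 4 * k ^ 2 * z), by positivity, by field_simp⟩
  obtain ⟨δ, δ0, δ1, δ2⟩ : ∃ δ, 0 < δ ∧ δ ≤ 1 ∧ δ * (4 * k) ≤ η :=
    ⟨min 1 (η / (4 * k)), by positivity, min_le_left _ _,
      (le_div_iff₀ (by positivity)).1 (min_le_right _ _)⟩
  refine ⟨rp M0 a0 + δ, by linarith, fun rI hI => ?_⟩
  obtain ⟨c, c0, c1, eL⟩ := hR rI (rp M0 a0 + δ) hI
  obtain ⟨c2, p2, e2⟩ := unif (g := fun p => η - De p.1 p.2.1 p.2.2) (by unfold De; fun_prop)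
    (isCompact_Icc (a := rm) (b := rp M0 a0 + δ)) (M0 := M0) (a0 := a0) fun r hr => by
      rcases lt_or_ge r (rp M0 a0) with e | e
      · linarith [De_neg ha (hf.lo.trans_le hr.1) e]
      · have m0 : 0 < M0 := (abs_nonneg _).trans_lt ha
        have h3 := Real.sq_sqrt (show 0 ≤ M0 ^ 2 - a0 ^ 2 by nlinarith [sq_abs a0, abs_nonneg a0])
        have : De M0 a0 r = (r - rp M0 a0) * (r + rp M0 a0 - 2 * M0) := by
          unfold De rp; linear_combination h3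
        have b : rp M0 a0 + 1 ≤ k := U0.hb
        have := mul_le_mul (show r - rp M0 a0 ≤ δ by linarith [hr.2])
          (show r + rp M0 a0 - 2 * M0 ≤ 2 * k by linarith [hr.2])
          (by linarith [hf.lo, hf.hi]) δ0.le
        nlinarith
  have e3 : ∀ᶠ m : ℝ × ℝ in 𝓝 (M0, a0), m.1 < M0 + (rm - M0) / 2 :=
    continuous_fst.continuousAt.eventually (gt_mem_nhds (by simp; linarith))
  obtain ⟨dl, dl0, hd⟩ := ex_dl (eU.and (eL.and (e2.and e3)))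
  have C0 := cC_pos k1 c0 l0
  refine ⟨cC k c la * Real.exp (ka * |rp M0 a0 + δ - rm|) * (8 * k), dl, ce k c la ka,
    by positivity, dl0, ce_pos k1 c0 l0 k0.le, ?_⟩
  intro M a h1 h2 A _ _ Φ h hN hF S ψ G bd del D C s hs u hu
  obtain ⟨U1, L1, e2, e3⟩ := hd M a h1 h2
  simp only [← hF] at U1 L1 e2 e3
  have U : Up k rm (rp M0 a0 + δ) N M a Φ.f := ⟨k1, U1.ha, U1.hM, by linarith [U1.hb], U1.hm, U1.hN,
    fun r r1 r2 => U1.hF r r1 (by linarith)⟩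
  have L : Lo c rm rI (rp M0 a0 + δ + 1) (rp M0 a0 + δ) M a Φ.f :=
    ⟨c0, L1.h1, L1.h2, fun r r1 r2 => absurd r1 (by linarith)⟩
  have s0 : 0 ≤ max s 0 := le_max_right _ _
  have := core2 h U L D C c1 k0.le l0 l1 (s1 := 8 * k * max s 0) (by positivity) le_rfl hs hN
    (fun r r1 r2 => by
      obtain ⟨b1, b2⟩ := U.De r1 r2
      have b3 := e2 r ⟨r1, r2⟩
      have b4 : rm - M0 ≤ 2 * r - 2 * M := by linarith
      have b5 := mul_le_mul (le_max_left s 0) le_rfl (d0.le.trans b4) s0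
      have b6 := mul_le_mul_of_nonneg_left (abs_le.1 b2).2 s0
      have g3 : |1 / (4 * k ^ 2) * De M a r| ≤ 1 := by
        rw [abs_mul, abs_of_pos (by positivity), one_div, inv_mul_le_iff₀ (by positivity)]; linarith
      obtain ⟨g4, g5⟩ := abs_le.1 g3
      obtain ⟨b7, b8⟩ := abs_le.1 b1
      rw [← hz]
      generalize De M a r = E at *
      generalize 1 / (4 * k ^ 2) * E = y at *
      rcases le_total E 0 with v | v
      · have v1 := mul_le_mul_of_nonneg_left (show 1 / 2 ≤ 1 + y / 2 by linarith)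
          (mul_nonneg k0.le (neg_nonneg.2 v))
        have v2 := mul_le_mul_of_nonneg_left (neg_le.1 b7) (mul_nonneg z0 (neg_nonneg.2 v))
        have v3 : 0 ≤ k ^ 2 * la * -E := mul_nonneg (by positivity) (neg_nonneg.2 v)
        rw [hk] at v1 ⊢
        linarith
      · have v1 := mul_le_mul_of_nonneg_left (show 1 + y / 2 ≤ 3 / 2 by linarith)
          (mul_nonneg k0.le v)
        have v2 := mul_le_mul_of_nonneg_left b8 (mul_nonneg z0 v)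
        have v3 := mul_le_mul_of_nonneg_right (show E ≤ η by linarith)
          (show 0 ≤ 3 / 2 * ka + 4 * k ^ 2 * z by positivity)
        linarith) (by rw [← hz, hk]; exact le_of_eq (by field_simp; ring)) hu
  have w1 : Wv S ψ := ⟨D.s1, fun p hp => (C.out p hp).1⟩
  have w3 : Wv S bd := ⟨D.s3, fun p hp => (C.out p hp).2.2⟩
  have q2 := Jw_pos h C.cp C.sub w3 (fun p e => by
    obtain ⟨al, be, ga, -, -, -, -, -, -, d1, -⟩ := D.dec p e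
    exact (abs_nonneg _).trans d1) (F := Φ.jq 1 u) fun x => h.lv_nonneg x 1 _
  have q3 := fun v => Jw_pos h C.cp C.sub w1 D.pos (F := Φ.sq v) fun x => by
    rw [h.val_sq]; positivity
  refine this.trans ?_
  rw [mul_assoc _ (8 * k)]
  refine mul_le_mul_of_nonneg_left ?_ (by positivity)
  linarith [mul_nonneg (show 0 ≤ 8 * k - 1 by linarith) (add_nonneg (add_nonneg q2 (q3 u))
    (q3 (Φ.P s Φ.s M a u + Φ.Q del u)))]

end Vale.Agent.P354XI
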