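import Vale.Agent.P354XG.GHP

/-!
Integration by parts over an abstract ring of functions. A is a commutative complex algebra with
a conjugation c, K is the ideal of the functions with compact support, I is the integral (a linear
functional which is meaningful on K), ev x is the value at the point x.
-/

namespace Vale.Agent.P354XI

open Vale.Agent.P354XG (Der D_mul D_add D_sub D_neg D_alg)

/-- The data. -/
structure Ibp (A : Type) [CommRing A] [Algebra ℂ A] where
  c : A →+* A
  K : Ideal A
  I : A →ₗ[ℂ] ℂ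
  Pt : Type
  ev : Pt → A →+* ℂ

variable {A : Type} [CommRing A] [Algebra ℂ A]

namespace Ibp

/-- The axioms. -/
structure Is (B : Ibp A) : Prop where
  cc : ∀ f, B.c (B.c f) = f
  calg : ∀ z : ℂ, B.c (algebraMap ℂ A z) = algebraMap ℂ A (starRingEnd ℂ z)
  K_c : ∀ f ∈ B.K, B.c f ∈ B.K
  ev_alg : ∀ x z, B.ev x (algebraMap ℂ A z) = z
  ev_c : ∀ x f, B.ev x (B.c f) = starRingEnd ℂ (B.ev x f)
  mono : ∀ f ∈ B.K, (∀ x, 0 ≤ (B.ev x f).re) → 0 ≤ (B.I f).re

/-- The derivation D preserves compact support and has the divergence d. -/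
structure Dv (B : Ibp A) (D : Der A) (d : A) : Prop where
  K_D : ∀ f ∈ B.K, D f ∈ B.K
  ibp : ∀ f ∈ B.K, B.I (D f) = -B.I (d * f)

/-- A real derivation without divergence. -/
structure Skew (B : Ibp A) (D : Der A) : Prop where
  dv : B.Dv D 0
  re : ∀ f, B.c (D f) = D (B.c f)

variable (B : Ibp A)

/-- The real part of the integral. -/
def J (f : A) : ℝ := (B.I f).re

/-- The real part of the pairing of f and g with the weight w. -/
def bil (w f g : A) : ℝ := B.J (w * (f * B.c g))

/-- The square of the norm with the weight w. -/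
def nsq (w f : A) : ℝ := B.bil w f f

/-- The real number t as an element of A. -/
def rl (A : Type) [CommRing A] [Algebra ℂ A] (t : ℝ) : A := algebraMap ℂ A (t : ℂ)

/-- Real elements. -/
def Re (f : A) : Prop := B.c f = f

/-- The value of a real element, and the modulus of the value of any element. -/
def val (x : B.Pt) (f : A) : ℝ := (B.ev x f).re
noncomputable def md (x : B.Pt) (f : A) : ℝ := ‖B.ev x f‖

/-- Weights: real, nonnegative, with compact support. -/
structure Wt (w : A) : Prop where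
  K : w ∈ B.K
  re : B.Re w
  pos : ∀ x, 0 ≤ B.val x w

variable {B}

theorem J_add (f g : A) : B.J (f + g) = B.J f + B.J g := by simp [J]
theorem J_sub (f g : A) : B.J (f - g) = B.J f - B.J g := by simp [J]
theorem J_neg (f : A) : B.J (-f) = -B.J f := by simp [J]
theorem J_zero : B.J 0 = 0 := by simp [J]
theorem J_sum {ι : Type} (s : Finset ι) (f : ι → A) : B.J (∑ i ∈ s, f i) = ∑ i ∈ s, B.J (f i) := by
  simp [J]
theorem J_rl (t : ℝ) (f : A) : B.J (rl A t * f) = t * B.J f := by
  rw [J, rl, ← Algebra.smul_def, map_smul, smul_eq_mul, Complex.re_ofReal_mul, J]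
theorem J_two (f : A) : B.J (2 * f) = 2 * B.J f := by rw [two_mul, J_add, two_mul]

theorem rl_add (s t : ℝ) : rl A (s + t) = rl A s + rl A t := by simp [rl]
theorem rl_sub (s t : ℝ) : rl A (s - t) = rl A s - rl A t := by simp [rl]
theorem rl_mul (s t : ℝ) : rl A (s * t) = rl A s * rl A t := by simp [rl]
theorem rl_neg (s : ℝ) : rl A (-s) = -rl A s := by simp [rl]
theorem rl_one : rl A 1 = 1 := by simp [rl]
theorem rl_zero : rl A 0 = 0 := by simp [rl]
theorem rl_two : rl A 2 = 2 := by
  rw [show (2 : ℝ) = 1 + 1 by norm_num, rl_add, rl_one, one_add_one_eq_two]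
theorem D_rl (D : Der A) (t : ℝ) : D (rl A t) = 0 := D_alg D _

namespace Is
variable (h : B.Is)
include h

theorem c_rl (t : ℝ) : B.c (rl A t) = rl A t := by rw [rl, h.calg, Complex.conj_ofReal]
theorem ev_rl (x : B.Pt) (t : ℝ) : B.ev x (rl A t) = t := h.ev_alg x _
theorem val_rl (x : B.Pt) (t : ℝ) : B.val x (rl A t) = t := by rw [val, h.ev_rl, Complex.ofReal_re]

theorem ev_re {f : A} (hf : B.Re f) (x : B.Pt) : B.ev x f = (B.val x f : ℂ) := by
  have := h.ev_c x f
  rw [hf] at this
  exact (Complex.conj_eq_iff_re.1 this.symm).symm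

/-- A pointwise inequality can be integrated. -/
theorem J_le {f g : A} (hf : f ∈ B.K) (hg : g ∈ B.K) (e : ∀ x, B.val x f ≤ B.val x g) :
    B.J f ≤ B.J g := by
  have := h.mono (g - f) (B.K.sub_mem hg hf) fun x => by
    rw [map_sub, Complex.sub_re]; exact sub_nonneg.2 (e x)
  rw [map_sub, Complex.sub_re] at this
  exact sub_nonneg.1 this

theorem J_congr {f g : A} (hf : f ∈ B.K) (hg : g ∈ B.K) (e : ∀ x, B.val x f = B.val x g) :
    B.J f = B.J g :=
  le_antisymm (h.J_le hf hg fun x => (e x).le) (h.J_le hg hf fun x => (e x).ge)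

theorem val_c (x : B.Pt) (f : A) : B.val x (B.c f) = B.val x f := by
  rw [val, h.ev_c, Complex.conj_re, val]

theorem md_c (x : B.Pt) (f : A) : B.md x (B.c f) = B.md x f := by
  rw [md, h.ev_c, Complex.norm_conj, md]

theorem J_c {f : A} (hf : f ∈ B.K) : B.J (B.c f) = B.J f :=
  h.J_congr (h.K_c f hf) hf fun x => h.val_c x f

theorem val_nsq {w : A} (hw : B.Re w) (x : B.Pt) (f : A) :
    B.val x (w * (f * B.c f)) = B.val x w * B.md x f ^ 2 := by
  rw [val, map_mul, map_mul, h.ev_c, h.ev_re hw, Complex.mul_conj, md, Complex.sq_norm,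
    ← Complex.ofReal_mul, Complex.ofReal_re]

theorem nsq_nonneg {w : A} (hw : B.Wt w) (f : A) : 0 ≤ B.nsq w f :=
  h.mono _ (B.K.mul_mem_right _ hw.K) fun x => by
    have := h.val_nsq hw.re x f
    rw [val] at this
    rw [this]
    exact mul_nonneg (hw.pos x) (sq_nonneg _)

theorem bil_comm {w : A} (hK : w ∈ B.K) (hw : B.Re w) (f g : A) : B.bil w f g = B.bil w g f := by
  rw [bil, bil, ← h.J_c (B.K.mul_mem_right _ hK), map_mul, map_mul, h.cc, hw, mul_comm (B.c f)]

end Is

theorem val_add (x : B.Pt) (f g : A) : B.val x (f + g) = B.val x f + B.val x g := by simp [val]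
theorem val_sub (x : B.Pt) (f g : A) : B.val x (f - g) = B.val x f - B.val x g := by simp [val]
theorem val_neg (x : B.Pt) (f : A) : B.val x (-f) = -B.val x f := by simp [val]
theorem val_sum {ι : Type} (x : B.Pt) (s : Finset ι) (f : ι → A) :
    B.val x (∑ i ∈ s, f i) = ∑ i ∈ s, B.val x (f i) := by simp [val]
theorem md_mul (x : B.Pt) (f g : A) : B.md x (f * g) = B.md x f * B.md x g := by simp [md]
theorem md_nonneg (x : B.Pt) (f : A) : 0 ≤ B.md x f := norm_nonneg _
theorem md_add (x : B.Pt) (f g : A) : B.md x (f + g) ≤ B.md x f + B.md x g := by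
  rw [md, map_add]; exact norm_add_le _ _
theorem md_sub (x : B.Pt) (f g : A) : B.md x (f - g) ≤ B.md x f + B.md x g := by
  rw [md, map_sub]; exact norm_sub_le _ _
theorem md_neg (x : B.Pt) (f : A) : B.md x (-f) = B.md x f := by rw [md, map_neg, norm_neg, md]
theorem md_sum {ι : Type} (x : B.Pt) (s : Finset ι) (f : ι → A) :
    B.md x (∑ i ∈ s, f i) ≤ ∑ i ∈ s, B.md x (f i) := by
  rw [md, map_sum]; exact norm_sum_le _ _
theorem abs_val_le (x : B.Pt) (f : A) : |B.val x f| ≤ B.md x f := Complex.abs_re_le_norm _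

theorem bil_add_w (w w' f g : A) : B.bil (w + w') f g = B.bil w f g + B.bil w' f g := by
  rw [bil, add_mul, J_add]; rfl
theorem bil_sub_w (w w' f g : A) : B.bil (w - w') f g = B.bil w f g - B.bil w' f g := by
  rw [bil, sub_mul, J_sub]; rfl
theorem bil_neg_w (w f g : A) : B.bil (-w) f g = -B.bil w f g := by
  rw [bil, neg_mul, J_neg]; rfl
theorem bil_rl_w (t : ℝ) (w f g : A) : B.bil (rl A t * w) f g = t * B.bil w f g := by
  rw [bil, mul_assoc, J_rl]; rfl
theorem bil_add_l (w f f' g : A) : B.bil w (f + f') g = B.bil w f g + B.bil w f' g := by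
  rw [bil, add_mul, mul_add, J_add]; rfl
theorem bil_add_r (w f g g' : A) : B.bil w f (g + g') = B.bil w f g + B.bil w f g' := by
  rw [bil, map_add, mul_add, mul_add, J_add]; rfl
theorem bil_sub_l (w f f' g : A) : B.bil w (f - f') g = B.bil w f g - B.bil w f' g := by
  rw [bil, sub_mul, mul_sub, J_sub]; rfl
theorem bil_sub_r (w f g g' : A) : B.bil w f (g - g') = B.bil w f g - B.bil w f g' := by
  rw [bil, map_sub, mul_sub, mul_sub, J_sub]; rfl
theorem bil_mul_l (w a f g : A) : B.bil w (a * f) g = B.bil (w * a) f g := by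
  rw [bil, bil]; congr 1; ring
theorem bil_mul_r (w a f g : A) : B.bil w f (a * g) = B.bil (w * B.c a) f g := by
  rw [bil, bil, map_mul]; congr 1; ring

/-- Closure properties of the divergence. -/
theorem Dv.add {D D' : Der A} {d d' : A} (h : B.Dv D d) (h' : B.Dv D' d') :
    B.Dv (D + D') (d + d') where
  K_D f hf := B.K.add_mem (h.K_D f hf) (h'.K_D f hf)
  ibp f hf := by
    rw [Derivation.add_apply, map_add, h.ibp f hf, h'.ibp f hf, add_mul, map_add]; ring

theorem Dv.smul {D : Der A} {d : A} (h : B.Dv D d) (a : A) : B.Dv (a • D) (a * d + D a) where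
  K_D f hf := by
    rw [Derivation.smul_apply, smul_eq_mul]; exact B.K.mul_mem_left _ (h.K_D f hf)
  ibp f hf := by
    have := h.ibp (a * f) (B.K.mul_mem_left _ hf)
    rw [D_mul, map_add] at this
    rw [Derivation.smul_apply, smul_eq_mul, show (a * d + D a) * f = d * (a * f) + f * D a by ring,
      map_add]
    linear_combination this

theorem Dv.congr {D : Der A} {d d' : A} (h : B.Dv D d) (e : d = d') : B.Dv D d' := e ▸ h

theorem Dv.int {D : Der A} {d : A} (h : B.Dv D d) {f : A} (hf : f ∈ B.K) :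
    B.J (D f) = -B.J (d * f) := by rw [J, h.ibp f hf, Complex.neg_re, J]

theorem Skew.int {D : Der A} (h : B.Skew D) {f : A} (hf : f ∈ B.K) : B.J (D f) = 0 := by
  rw [h.dv.int hf, zero_mul, J_zero, neg_zero]

theorem Skew.add {D D' : Der A} (h : B.Skew D) (h' : B.Skew D') : B.Skew (D + D') where
  dv := (h.dv.add h'.dv).congr (add_zero 0)
  re f := by rw [Derivation.add_apply, Derivation.add_apply, map_add, h.re, h'.re]

theorem Skew.smul {D : Der A} (h : B.Skew D) {a : A} (ha : B.Re a) (e : D a = 0) :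
    B.Skew (a • D) where
  dv := (h.dv.smul a).congr (by rw [e, mul_zero, add_zero])
  re f := by
    rw [Derivation.smul_apply, Derivation.smul_apply, smul_eq_mul, smul_eq_mul, map_mul, h.re, ha]

theorem Skew.isRe {D : Der A} (h : B.Skew D) {a : A} (ha : B.Re a) : B.Re (D a) := by
  rw [Re, h.re, ha]

/-- Moving a real skew derivation. -/
theorem Skew.move {D : Der A} (h : B.Skew D) {w : A} (hw : w ∈ B.K) (f g : A) :
    B.bil w (D f) g = -B.bil w f (D g) - B.bil (D w) f g := by
  have := h.int (B.K.mul_mem_right (f * B.c g) hw)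
  rw [D_mul, D_mul, ← h.re, mul_add, J_add, J_add] at this
  rw [bil, bil, bil, mul_comm (D f), mul_comm (D w)]
  linarith

/-- The pairing of D f with f. -/
theorem Skew.self (hB : B.Is) {D : Der A} (h : B.Skew D) {w : A} (hw : w ∈ B.K) (hr : B.Re w)
    (f : A) : 2 * B.bil w (D f) f = -B.nsq (D w) f := by
  have := h.move hw f f
  rw [hB.bil_comm hw hr f] at this
  rw [nsq]; linarith

/-- Moving a complex derivation D with the conjugate Db and the divergence d. -/
theorem Dv.move {D Db : Der A} {d : A} (h : B.Dv D d) (hc : ∀ f, B.c (Db f) = D (B.c f)) {w : A}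
    (hw : w ∈ B.K) (f g : A) :
    B.bil w (D f) g = -B.bil w f (Db g) - B.bil (D w + d * w) f g := by
  have := h.int (B.K.mul_mem_right (f * B.c g) hw)
  rw [D_mul, D_mul, ← hc, mul_add, J_add, J_add] at this
  rw [bil_add_w, bil, bil, bil, bil, mul_comm (D f), mul_comm (D w), mul_assoc d]
  linarith

end Ibp

end Vale.Agent.P354XI
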