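import Vale.Agent.P354XI.Tool

/-!
The Kerr wave frame in ingoing coordinates: T, R, the rotations L i and the direction cosines w i.
The principal part of the Teukolsky operators is W0 = De R R + 2 S R + sum of Ad i Ad i, where
S = (r^2 + a^2) T + a Phi and Ad i = L i + a (delta - x w i) T. The three currents of W0.
-/

namespace Vale.Agent.P354XI

open Vale.Agent.P354XG (Der D_mul D_add D_sub D_neg D_alg D_num D_one D_zero)
open Ibp

/-- The data. -/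
structure KW (A : Type) [CommRing A] [Algebra ℂ A] where
  T : Der A
  R : Der A
  L : Fin 3 → Der A
  w : Fin 3 → A
  r : A
  a : ℝ
  M : ℝ

variable {A : Type} [CommRing A] [Algebra ℂ A]

namespace KW

/-- The relations. -/
structure Is (K : KW A) (B : Ibp A) : Prop where
  is : B.Is
  sT : B.Skew K.T
  sR : B.Skew K.R
  sL : ∀ i, B.Skew (K.L i)
  re_r : B.Re K.r
  re_w : ∀ i, B.Re (K.w i)
  R_T : ∀ f, K.R (K.T f) = K.T (K.R f)
  L_T : ∀ i f, K.L i (K.T f) = K.T (K.L i f)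
  L_R : ∀ i f, K.L i (K.R f) = K.R (K.L i f)
  LL : ∀ i f, K.L i (K.L (i + 1) f) - K.L (i + 1) (K.L i f) = -K.L (i + 2) f
  T_r : K.T K.r = 0
  R_r : K.R K.r = 1
  L_r : ∀ i, K.L i K.r = 0
  T_w : ∀ i, K.T (K.w i) = 0
  R_w : ∀ i, K.R (K.w i) = 0
  Lw0 : ∀ i, K.L i (K.w i) = 0
  Lw1 : ∀ i, K.L i (K.w (i + 1)) = -K.w (i + 2)
  Lw2 : ∀ i, K.L i (K.w (i + 2)) = K.w (i + 1)
  one : K.w 0 * K.w 0 + K.w 1 * K.w 1 + K.w 2 * K.w 2 = 1

variable (K : KW A)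

noncomputable def ca : A := rl A K.a
noncomputable def cM : A := rl A K.M
noncomputable def De : A := K.r * K.r - 2 * K.cM * K.r + K.ca * K.ca
noncomputable def De' : A := 2 * K.r - 2 * K.cM
noncomputable def W : A := K.r * K.r + K.ca * K.ca
noncomputable def Sg : A := K.r * K.r + K.ca * K.ca * (K.w 2 * K.w 2)
/-- The components of the axis orthogonal to the direction w. -/
def e : Fin 3 → A := ![-(K.w 2 * K.w 0), -(K.w 2 * K.w 1), 1 - K.w 2 * K.w 2]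
noncomputable def S : Der A := K.W • K.T + K.ca • K.L 2
noncomputable def Ad (i : Fin 3) : Der A := K.L i + (K.ca * K.e i) • K.T
/-- The generator of the fibre. -/
def V (u : A) : A := K.w 0 * K.L 0 u + K.w 1 * K.L 1 u + K.w 2 * K.L 2 u
noncomputable def W0 (u : A) : A :=
  K.De * K.R (K.R u) + 2 * K.S (K.R u) + ∑ i, K.Ad i (K.Ad i u)

theorem S_ap (u : A) : K.S u = K.W * K.T u + K.ca * K.L 2 u := by simp [S]
theorem Ad_ap (i : Fin 3) (u : A) : K.Ad i u = K.L i u + K.ca * K.e i * K.T u := by simp [Ad]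
theorem D_ca (D : Der A) : D K.ca = 0 := D_rl D _
theorem D_cM (D : Der A) : D K.cM = 0 := D_rl D _

variable {K} {B : Ibp A}

namespace Is
variable (h : K.Is B)
include h

theorem re_a : B.Re K.ca := h.is.re_rl _
theorem re_M : B.Re K.cM := h.is.re_rl _
theorem re_De : B.Re K.De :=
  ((h.re_r.mul h.re_r).sub ((re_two.mul h.re_M).mul h.re_r)).add (h.re_a.mul h.re_a)
theorem re_De' : B.Re K.De' := (re_two.mul h.re_r).sub (re_two.mul h.re_M)
theorem re_W : B.Re K.W := (h.re_r.mul h.re_r).add (h.re_a.mul h.re_a)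
theorem re_Sg : B.Re K.Sg :=
  (h.re_r.mul h.re_r).add ((h.re_a.mul h.re_a).mul ((h.re_w 2).mul (h.re_w 2)))
theorem re_e (i : Fin 3) : B.Re (K.e i) := by
  fin_cases i
  exacts [((h.re_w 2).mul (h.re_w 0)).neg, ((h.re_w 2).mul (h.re_w 1)).neg,
    re_one.sub ((h.re_w 2).mul (h.re_w 2))]

/-- The table of the rotations. -/
theorem tab : K.L 0 (K.w 0) = 0 ∧ K.L 0 (K.w 1) = -K.w 2 ∧ K.L 0 (K.w 2) = K.w 1 ∧
    K.L 1 (K.w 0) = K.w 2 ∧ K.L 1 (K.w 1) = 0 ∧ K.L 1 (K.w 2) = -K.w 0 ∧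
    K.L 2 (K.w 0) = -K.w 1 ∧ K.L 2 (K.w 1) = K.w 0 ∧ K.L 2 (K.w 2) = 0 :=
  ⟨h.Lw0 0, h.Lw1 0, h.Lw2 0, h.Lw2 1, h.Lw0 1, h.Lw1 1, h.Lw1 2, h.Lw2 2, h.Lw0 2⟩

theorem L10 (f : A) : K.L 1 (K.L 0 f) = K.L 0 (K.L 1 f) + K.L 2 f := by
  have := h.LL 0 f
  simp only [zero_add] at this
  linear_combination -this
theorem L21 (f : A) : K.L 2 (K.L 1 f) = K.L 1 (K.L 2 f) + K.L 0 f := by
  have : K.L 1 (K.L 2 f) - K.L 2 (K.L 1 f) = -K.L 0 f := h.LL 1 f
  linear_combination -this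
theorem L20 (f : A) : K.L 2 (K.L 0 f) = K.L 0 (K.L 2 f) - K.L 1 f := by
  have : K.L 2 (K.L 0 f) - K.L 0 (K.L 2 f) = -K.L 1 f := h.LL 2 f
  linear_combination this

theorem T_e (i : Fin 3) : K.T (K.e i) = 0 := by
  fin_cases i <;> simp [e, h.T_w]
theorem R_e (i : Fin 3) : K.R (K.e i) = 0 := by
  fin_cases i <;> simp [e, h.R_w]
theorem T_De : K.T K.De = 0 := by simp only [De, D_add, D_sub, D_mul, D_num, D_ca, D_cM, h.T_r]; ring
theorem R_De : K.R K.De = K.De' := by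
  simp only [De, De', D_add, D_sub, D_mul, D_num, D_ca, D_cM, h.R_r]; ring
theorem L_De (i : Fin 3) : K.L i K.De = 0 := by
  simp only [De, D_add, D_sub, D_mul, D_num, D_ca, D_cM, h.L_r]; ring
theorem T_De' : K.T K.De' = 0 := by simp only [De', D_sub, D_mul, D_num, D_cM, h.T_r]; ring
theorem R_De' : K.R K.De' = 2 := by simp only [De', D_sub, D_mul, D_num, D_cM, h.R_r]; ring
theorem L_De' (i : Fin 3) : K.L i K.De' = 0 := by
  simp only [De', D_sub, D_mul, D_num, D_cM, h.L_r]; ring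
theorem T_W : K.T K.W = 0 := by simp only [W, D_add, D_mul, D_ca, h.T_r]; ring
theorem R_W : K.R K.W = 2 * K.r := by simp only [W, D_add, D_mul, D_ca, h.R_r]; ring
theorem L_W (i : Fin 3) : K.L i K.W = 0 := by simp only [W, D_add, D_mul, D_ca, h.L_r]; ring

theorem S_r : K.S K.r = 0 := by rw [S_ap, h.T_r, h.L_r]; ring
theorem S_De : K.S K.De = 0 := by rw [S_ap, h.T_De, h.L_De]; ring
theorem S_De' : K.S K.De' = 0 := by rw [S_ap, h.T_De', h.L_De']; ring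
theorem S_x : K.S (K.w 2) = 0 := by rw [S_ap, h.T_w, h.Lw0]; ring
theorem A_r (i : Fin 3) : K.Ad i K.r = 0 := by rw [Ad_ap, h.T_r, h.L_r]; ring
theorem A_De (i : Fin 3) : K.Ad i K.De = 0 := by rw [Ad_ap, h.T_De, h.L_De]; ring
theorem A_De' (i : Fin 3) : K.Ad i K.De' = 0 := by rw [Ad_ap, h.T_De', h.L_De']; ring

theorem sS : B.Skew K.S := (h.sT.smul h.re_W h.T_W).add ((h.sL 2).smul h.re_a (K.D_ca _))
theorem sA (i : Fin 3) : B.Skew (K.Ad i) :=
  (h.sL i).add (h.sT.smul (h.re_a.mul (h.re_e i)) (by rw [D_mul, h.T_e, D_ca]; ring))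

theorem R_S (u : A) : K.R (K.S u) = K.S (K.R u) + 2 * K.r * K.T u := by
  simp only [S_ap, D_add, D_mul, D_ca, h.R_W, h.R_T, h.L_R]; ring
theorem T_S (u : A) : K.T (K.S u) = K.S (K.T u) := by
  simp only [S_ap, D_add, D_mul, D_ca, h.T_W, h.L_T]; ring
theorem R_A (i : Fin 3) (u : A) : K.R (K.Ad i u) = K.Ad i (K.R u) := by
  simp only [Ad_ap, D_add, D_mul, D_ca, h.R_e, h.R_T, h.L_R]; ring
theorem T_A (i : Fin 3) (u : A) : K.T (K.Ad i u) = K.Ad i (K.T u) := by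
  simp only [Ad_ap, D_add, D_mul, D_ca, h.T_e, h.L_T]; ring
theorem L2_S (u : A) : K.L 2 (K.S u) = K.S (K.L 2 u) := by
  simp only [S_ap, D_add, D_mul, D_ca, h.L_W, h.L_T]; ring
theorem L2_A0 (u : A) : K.L 2 (K.Ad 0 u) = K.Ad 0 (K.L 2 u) - K.Ad 1 u := by
  simp only [Ad_ap, e, Matrix.cons_val, D_add, D_mul, D_neg, D_ca, h.tab, h.L_T, h.L20]; ring
theorem L2_A1 (u : A) : K.L 2 (K.Ad 1 u) = K.Ad 1 (K.L 2 u) + K.Ad 0 u := by
  simp only [Ad_ap, e, Matrix.cons_val, D_add, D_mul, D_neg, D_ca, h.tab, h.L_T, h.L21]; ring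
theorem L2_A2 (u : A) : K.L 2 (K.Ad 2 u) = K.Ad 2 (K.L 2 u) := by
  simp only [Ad_ap, e, Matrix.cons_val, D_add, D_sub, D_mul, D_one, D_ca, h.tab, h.L_T]; ring
theorem A_W (i : Fin 3) : K.Ad i K.W = 0 := by rw [Ad_ap, h.T_W, h.L_W]; ring
theorem A0_S (u : A) : K.Ad 0 (K.S u) = K.S (K.Ad 0 u) + K.ca * K.Ad 1 u := by
  simp only [S_ap, D_add, D_mul, D_ca, h.A_W, h.T_A, h.L2_A0]; ring
theorem A1_S (u : A) : K.Ad 1 (K.S u) = K.S (K.Ad 1 u) - K.ca * K.Ad 0 u := by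
  simp only [S_ap, D_add, D_mul, D_ca, h.A_W, h.T_A, h.L2_A1]; ring
theorem A2_S (u : A) : K.Ad 2 (K.S u) = K.S (K.Ad 2 u) := by
  simp only [S_ap, D_add, D_mul, D_ca, h.A_W, h.T_A, h.L2_A2]; ring

omit h in
/-- T in the frame S, Ad. -/
theorem Sg_T (u : A) : K.Sg * K.T u = K.S u - K.ca * K.Ad 2 u := by
  simp only [S_ap, Ad_ap, Sg, W, e, Matrix.cons_val]; ring

theorem ee : K.e 0 * K.e 0 + K.e 1 * K.e 1 + K.e 2 * K.e 2 = 1 - K.w 2 * K.w 2 := by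
  simp only [e, Matrix.cons_val]
  linear_combination (K.w 2 * K.w 2) * h.one

/-- The current of y R. -/
theorem cur_R {y : A} (hy : y ∈ B.K) (hr : B.Re y) (u : A) :
    2 * B.bil y (K.W0 u) (K.R u) = -B.nsq (K.R (y * K.De) + 2 * K.S y) (K.R u) +
      ∑ i, (B.nsq (K.R y) (K.Ad i u) - 2 * B.bil (K.Ad i y) (K.Ad i u) (K.R u)) := by
  have e1 := h.sR.self h.is (B.K.mul_mem_right K.De hy) (hr.mul h.re_De) (K.R u)
  have e2 := h.sS.self h.is hy hr (K.R u)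
  have e3 : ∀ i, 2 * B.bil y (K.Ad i (K.Ad i u)) (K.R u) =
      B.nsq (K.R y) (K.Ad i u) - 2 * B.bil (K.Ad i y) (K.Ad i u) (K.R u) := fun i => by
    have := h.is.three (h.sA i) (h.sA i) h.sR hy hr u
    rw [h.R_A, sub_self, sub_self, bil_zero_r, bil_zero_l] at this
    rw [this, nsq]; ring
  rw [W0, bil_add_l, bil_add_l, bil_mul_l, bil_mul_l, mul_comm y 2, bil_two_w, bil_sum_l,
    nsq_add_w, mul_add, Finset.mul_sum, Finset.sum_congr rfl fun i _ => e3 i, nsq, nsq, bil_two_w]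
  rw [nsq] at e1 e2
  linarith

/-- The current of z S. -/
theorem cur_S {z : A} (hz : z ∈ B.K) (hr : B.Re z) (u : A) :
    2 * B.bil z (K.W0 u) (K.S u) = B.nsq (K.De * K.S z) (K.R u) - 2 * B.nsq (K.R z) (K.S u) -
      2 * B.bil (K.R (z * K.De)) (K.R u) (K.S u) - 4 * B.bil (z * K.De * K.r) (K.R u) (K.T u) -
      8 * B.bil (z * K.r) (K.T u) (K.S u) +
      ∑ i, (B.nsq (K.S z) (K.Ad i u) - 2 * B.bil (K.Ad i z) (K.Ad i u) (K.S u)) := by
  have e1 := h.is.three h.sR h.sR h.sS (B.K.mul_mem_right K.De hz) (hr.mul h.re_De) u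
  rw [h.R_S, add_sub_cancel_left, sub_self, bil_zero_l, D_mul K.S, h.S_De, mul_zero, zero_add,
    mul_assoc 2, two_mul (K.r * _), bil_add_r, bil_re_r h.re_r] at e1
  have e2 := h.sR.self h.is hz hr (K.S u)
  rw [h.R_S, bil_add_l, mul_assoc 2, two_mul (K.r * _), bil_add_l, bil_mul_l] at e2
  have e3 := fun i => h.is.three (h.sA i) (h.sA i) h.sS hz hr u
  have a0 := e3 0
  have a1 := e3 1
  have a2 := e3 2
  rw [h.A0_S, add_sub_cancel_left, sub_self, bil_zero_l, bil_re_r h.re_a] at a0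
  rw [h.A1_S, sub_sub_cancel_left, sub_self, bil_zero_l, bil_neg_r, bil_re_r h.re_a,
    h.is.bil_comm (B.K.mul_mem_right _ hz) (hr.mul h.re_a) (K.Ad 1 u)] at a1
  rw [h.A2_S, sub_self, sub_self, bil_zero_l, bil_zero_r] at a2
  rw [W0, bil_add_l, bil_add_l, bil_mul_l, bil_mul_l, mul_comm z 2, bil_two_w, bil_sum_l]
  simp only [Fin.sum_univ_three, nsq] at e2 ⊢
  linarith

/-- The current of the Lagrangian multiplier. -/
theorem cur_0 {g : A} (hg : g ∈ B.K) (u : A) :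
    B.bil g (K.W0 u) u = -B.nsq (g * K.De) (K.R u) - 2 * B.bil g (K.R u) (K.S u) -
      B.bil (K.R (g * K.De) + 2 * K.S g) (K.R u) u -
      ∑ i, (B.nsq g (K.Ad i u) + B.bil (K.Ad i g) (K.Ad i u) u) := by
  have e1 := h.sR.move (B.K.mul_mem_right K.De hg) (K.R u) u
  have e2 := h.sS.move hg (K.R u) u
  have e3 := fun i => (h.sA i).move hg (K.Ad i u) u
  rw [W0, bil_add_l, bil_add_l, bil_mul_l, bil_mul_l, mul_comm g 2, bil_two_w, bil_sum_l,
    Finset.sum_congr rfl fun i _ => e3 i, bil_add_w, bil_two_w]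
  simp only [Fin.sum_univ_three, nsq]
  linarith

end Is
end KW
end Vale.Agent.P354XI
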