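import Vale.Agent.P354XI.Tool
import Vale.Agent.P354YF.Hardy

/-!
The perturbation lemma for vector field multipliers and the elliptic lemma, for any finite family
of real skew letters.
-/

namespace Vale.Agent.P354XI

open Vale.Agent.P354XG (Der D_mul D_add D_sub D_neg D_alg D_zero)
open Vale.Agent.P354YF Ibp Finset

variable {A : Type} [CommRing A] [Algebra ℂ A] {ι : Type} [Fintype ι] {B : Ibp A} {X : ι → Der A}

/-- Real skew letters whose commutators vanish or are letters up to the sign. -/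
structure Let (B : Ibp A) (X : ι → Der A) : Prop where
  is : B.Is
  sk : ∀ a, B.Skew (X a)
  cm : ∀ a b, (∀ u, X a (X b u) - X b (X a u) = 0) ∨
    ∃ c, (∀ u, X a (X b u) - X b (X a u) = X c u) ∨ ∀ u, X a (X b u) - X b (X a u) = -X c u

theorem md_X (x : B.Pt) (a : ι) (u : A) : B.md x (X a u) ^ 2 ≤ qq B X x 1 u := qq_der 0 a u

theorem md_XX (x : B.Pt) (a b : ι) (u : A) : B.md x (X a (X b u)) ^ 2 ≤ qq B X x 2 u :=
  (md_X x a _).trans (qq_der 1 b u)

theorem Let.md_cm (h : Let B X) (x : B.Pt) (a b : ι) (u : A) :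
    B.md x (X a (X b u) - X b (X a u)) ^ 2 ≤ qq B X x 1 u := by
  rcases h.cm a b with e | ⟨c, e | e⟩
  · rw [e, md_zero]; simpa using qq_nonneg 1 u
  · rw [e]; exact md_X x c u
  · rw [e, md_neg]; exact md_X x c u

/-- A pairing is bounded by two jets. -/
theorem bil_nj2 (h : B.Is) {w W V : A} (hw : w ∈ B.K) (hW : W ∈ B.K) (hV : V ∈ B.K) {f g u v : A}
    {n m : ℕ} (e : ∀ x, B.md x w * (B.md x f * B.md x g) ≤
      B.val x W * qq B X x n u + B.val x V * qq B X x m v) :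
    |B.bil w f g| ≤ nj B X W n u + nj B X V m v := by
  have k := B.K.add_mem (B.K.mul_mem_right (sq B.c X n u) hW) (B.K.mul_mem_right (sq B.c X m v) hV)
  have q := B.K.mul_mem_right (f * B.c g) hw
  rw [nj, nj, ← J_add, abs_le, bil, ← J_neg]
  exact ⟨h.J_le (B.K.neg_mem k) q fun x => by
      rw [val_neg, val_add, val_nj h, val_nj h]
      exact (abs_le.1 ((h.abs_val_bil x w f g).trans (e x))).1,
    h.J_le q k fun x => by
      rw [val_add, val_nj h, val_nj h]; exact (abs_le.1 ((h.abs_val_bil x w f g).trans (e x))).2⟩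

theorem bil_nj (h : B.Is) {w W : A} (hw : w ∈ B.K) (hW : W ∈ B.K) {f g u : A} {n : ℕ}
    (e : ∀ x, B.md x w ≤ B.val x W) (hf : ∀ x, B.md x f ^ 2 ≤ qq B X x n u)
    (hg : ∀ x, B.md x g ^ 2 ≤ qq B X x n u) : |B.bil w f g| ≤ nj B X W n u := by
  have := bil_nj2 (X := X) h hw hW B.K.zero_mem (f := f) (g := g) (u := u) (v := u) (n := n)
    (m := 0) fun x => by
      rw [val_zero, zero_mul, add_zero]
      refine mul_le_mul (e x) ?_ (mul_nonneg (md_nonneg _ _) (md_nonneg _ _))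
        ((md_nonneg _ _).trans (e x))
      nlinarith [hf x, hg x, sq_nonneg (B.md x f - B.md x g)]
  rwa [nj, nj, zero_mul, J_zero, add_zero] at this

/-- The second order operator with the coefficients de. -/
def Pe (X : ι → Der A) (de : ι → ι → A) (u : A) : A := ∑ a, ∑ b, de a b * X a (X b u)

theorem Let.pert1 (h : Let B X) {w W : A} (hw : w ∈ B.K) (hr : B.Re w) (hW : W ∈ B.K)
    (e0 : ∀ x, B.md x w ≤ B.val x W) (e1 : ∀ x d, B.md x (X d w) ≤ B.val x W) (a b c : ι) (u : A) :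
    |B.bil w (X a (X b u)) (X c u)| ≤ 3 * nj B X W 1 u := by
  have t := h.is.three (h.sk a) (h.sk b) (h.sk c) hw hr u
  have k := fun d => (h.sk d).dv.K_D _ hw
  have p1 := bil_nj (X := X) h.is (k c) hW (e1 · c) (md_X · a u) (md_X · b u)
  have p2 := bil_nj (X := X) h.is (k a) hW (e1 · a) (md_X · b u) (md_X · c u)
  have p3 := bil_nj (X := X) h.is (k b) hW (e1 · b) (md_X · a u) (md_X · c u)
  have p4 := bil_nj (X := X) h.is hw hW e0 (md_X · b u) (h.md_cm · a c u)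
  have p5 := bil_nj (X := X) h.is hw hW e0 (md_X · a u) (h.md_cm · b c u)
  have p6 := bil_nj (X := X) h.is hw hW e0 (h.md_cm · a b u) (md_X · c u)
  rw [abs_le] at *
  constructor <;> linarith [p1.1, p1.2, p2.1, p2.2, p3.1, p3.2, p4.1, p4.2, p5.1, p5.2, p6.1, p6.2]

/-- The perturbation lemma: the multiplier is Om times the field with the components y. -/
theorem Let.pert (h : Let B X) {de : ι → ι → A} (rd : ∀ a b, B.Re (de a b)) {y : ι → A}
    (ry : ∀ c, B.Re (y c)) {Om W : A} (hO : Om ∈ B.K) (rO : B.Re Om) (hW : W ∈ B.K)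
    (e0 : ∀ x a b c, B.md x (Om * y c * de a b) ≤ B.val x W)
    (e1 : ∀ x a b c d, B.md x (X d (Om * y c * de a b)) ≤ B.val x W) (u : A) :
    |B.bil Om (Pe X de u) (∑ c, y c * X c u)| ≤ 3 * (Fintype.card ι : ℝ) ^ 3 * nj B X W 1 u := by
  have e : B.bil Om (Pe X de u) (∑ c, y c * X c u) =
      ∑ c, ∑ a, ∑ b, B.bil (Om * y c * de a b) (X a (X b u)) (X c u) := by
    rw [bil_sum_r]
    refine sum_congr rfl fun c _ => ?_
    rw [bil_re_r (ry c), Pe, bil_sum_l]
    refine sum_congr rfl fun a _ => ?_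
    rw [bil_sum_l]
    exact sum_congr rfl fun b _ => bil_mul_l _ _ _ _
  rw [e]
  refine (abs_sum_le_sum_abs _ _).trans ((sum_le_sum fun c _ => (abs_sum_le_sum_abs _ _).trans
    (sum_le_sum fun a _ => (abs_sum_le_sum_abs _ _).trans (sum_le_sum fun b _ =>
      h.pert1 (B.K.mul_mem_right _ (B.K.mul_mem_right _ hO)) ((rO.mul (ry c)).mul (rd a b)) hW
        (e0 · a b c) (e1 · a b c) a b c u))).trans (le_of_eq ?_))
  simp only [sum_const, card_univ, nsmul_eq_mul]
  ring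

/-- A pairing of a first order and a second order quantity. -/
theorem bil_12 (h : B.Is) {w W V : A} (hw : w ∈ B.K) (hW : B.Wt W) (hV : B.Wt V) {f g u : A}
    {th : ℝ} (t0 : 0 < th) (e : ∀ x, B.md x w ^ 2 ≤ B.val x W * B.val x V)
    (hf : ∀ x, B.md x f ^ 2 ≤ qq B X x 1 u) (hg : ∀ x, B.md x g ^ 2 ≤ qq B X x 2 u) :
    |B.bil w f g| ≤ th * nj B X W 2 u + th⁻¹ * nj B X V 1 u := by
  rw [← nj_rl_w, ← nj_rl_w]
  refine bil_nj2 h hw (B.K.mul_mem_left _ hW.K) (B.K.mul_mem_left _ hV.K) fun x => ?_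
  rw [h.val_mul (h.re_rl _), h.val_mul (h.re_rl _), h.val_rl, h.val_rl]
  have a := mul_nonneg (mul_nonneg t0.le (hW.pos x)) (qq_nonneg (B := B) (X := X) (x := x) 2 u)
  have b := mul_nonneg (mul_nonneg (inv_pos.2 t0).le (hV.pos x))
    (qq_nonneg (B := B) (X := X) (x := x) 1 u)
  refine (abs_le_of_sq_le_sq' ?_ (add_nonneg a b)).2
  have c : B.md x w ^ 2 * (B.md x f ^ 2 * B.md x g ^ 2) ≤
      B.val x W * B.val x V * (qq B X x 1 u * qq B X x 2 u) :=
    mul_le_mul (e x) (mul_le_mul (hf x) (hg x) (sq_nonneg _) (qq_nonneg _ _)) (by positivity)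
      (mul_nonneg (hW.pos x) (hV.pos x))
  have d : th * B.val x W * qq B X x 2 u * (th⁻¹ * B.val x V * qq B X x 1 u) =
      B.val x W * B.val x V * (qq B X x 1 u * qq B X x 2 u) := by field_simp
  nlinarith [sq_nonneg (th * B.val x W * qq B X x 2 u - th⁻¹ * B.val x V * qq B X x 1 u),
    mul_nonneg a b]

theorem Let.ell1 (h : Let B X) {w W V : A} (hw : w ∈ B.K) (hW : B.Wt W) (hV : B.Wt V) {th : ℝ}
    (t0 : 0 < th) (e0 : ∀ x, B.md x w ^ 2 ≤ B.val x W * B.val x V)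
    (e1 : ∀ x d, B.md x (X d w) ^ 2 ≤ B.val x W * B.val x V) (a b : ι) (u : A) :
    B.nsq w (X b (X a u)) ≤ B.bil w (X a (X a u)) (X b (X b u)) +
      4 * (th * nj B X W 2 u + th⁻¹ * nj B X V 1 u) := by
  have t := Ibp.Is.four (h.sk a) (h.sk b) hw u
  have k := fun d => (h.sk d).dv.K_D _ hw
  have p1 := bil_12 (X := X) h.is (k b) hW hV t0 (e1 · b) (md_X · a u) (md_XX · a b u)
  have p2 := bil_12 (X := X) h.is (k a) hW hV t0 (e1 · a) (md_X · a u) (md_XX · b b u)
  have p3 := bil_12 (X := X) h.is hw hW hV t0 e0 (md_X · a u)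
    fun x => (h.md_cm x a b (X b u)).trans (qq_der 1 b u)
  have p4 := bil_12 (X := X) h.is (h.is.K_c _ hw) hW hV t0 (fun x => by rw [h.is.md_c]; exact e0 x)
    (h.md_cm · a b u) (md_XX · b a u)
  have q : B.bil (B.c w) (X a (X b u) - X b (X a u)) (X b (X a u)) =
      B.bil w (X b (X a u)) (X a (X b u)) - B.nsq w (X b (X a u)) := by
    rw [nsq, ← bil_sub_r, bil, bil, ← h.is.J_c (B.K.mul_mem_right _ hw), map_mul, map_mul, h.is.cc,
      mul_comm (B.c (X b (X a u)))]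
  rw [q] at p4
  rw [abs_le] at *
  linarith [p1.1, p2.2, p3.2, p4.1]

/-- The elliptic lemma for the sum of c a X a X a over the letters in s. -/
theorem Let.ell (h : Let B X) (s : Finset ι) {c : ι → A} (rc : ∀ a, B.Re (c a)) {w W V : A}
    (hw : w ∈ B.K) (hW : B.Wt W) (hV : B.Wt V) {th : ℝ} (t0 : 0 < th)
    (e0 : ∀ x a b, B.md x (w * c a * c b) ^ 2 ≤ B.val x W * B.val x V)
    (e1 : ∀ x a b d, B.md x (X d (w * c a * c b)) ^ 2 ≤ B.val x W * B.val x V) (u : A) :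
    ∑ a ∈ s, ∑ b ∈ s, B.nsq (w * c a * c b) (X b (X a u)) ≤
      B.nsq w (∑ a ∈ s, c a * X a (X a u)) +
        4 * (s.card : ℝ) ^ 2 * (th * nj B X W 2 u + th⁻¹ * nj B X V 1 u) := by
  have e : B.nsq w (∑ a ∈ s, c a * X a (X a u)) =
      ∑ a ∈ s, ∑ b ∈ s, B.bil (w * c a * c b) (X a (X a u)) (X b (X b u)) := by
    rw [nsq, bil_sum_l]
    refine sum_congr rfl fun a _ => ?_
    rw [bil_sum_r]
    exact sum_congr rfl fun b _ => by rw [bil_mul_l, bil_re_r (rc b)]
  rw [e]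
  refine (sum_le_sum fun a _ => sum_le_sum fun b _ => h.ell1
    (B.K.mul_mem_right _ (B.K.mul_mem_right _ hw)) hW hV t0 (e0 · a b) (e1 · a b) a b u).trans
    (le_of_eq ?_)
  simp only [sum_add_distrib, sum_const, nsmul_eq_mul]
  ring

end Vale.Agent.P354XI
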