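import Vale.Agent.P354XI.Vf

/-!
The vector field lemma as an inequality.
-/

namespace Vale.Agent.P354XI

open Vale.Agent.P354XG (Der D_mul D_add D_sub D_neg D_alg D_num D_one D_zero)
open Ibp

variable {A : Type} [CommRing A] [Algebra ℂ A]

namespace KW

variable (K : KW A) (B : Ibp A)

/-- The pointwise condition on the weight Om: good weight G, bad weight Bd. -/
def Good (k al g ze : ℝ) (Om G Bd : A) (x : B.Pt) : Prop :=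
  ∀ R l A0 A1 A2 : ℝ, (B.val x G - B.val x Bd) * (R ^ 2 + l ^ 2 + (A0 ^ 2 + A1 ^ 2 + A2 ^ 2)) +
      B.val x Om * (ze * R ^ 2 + 9 * (20 * k ^ 4) ^ 4 / ze *
        (l ^ 2 + B.val x K.De ^ 2 * R ^ 2 + (A0 ^ 2 + A1 ^ 2 + A2 ^ 2))) ≤
    gd (1 + g * B.val x K.De / 2) (g / 2) (-B.val x (K.lt Om)) (B.val x (K.R Om))
      (B.val x (K.Ad 0 Om)) (B.val x (K.Ad 1 Om)) (B.val x (K.Ad 2 Om)) R l A0 A1 A2 +
      B.val x Om * ((2 * al - 1) * B.val x K.De') * R ^ 2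

/-- The same with the weight G for the radial and the weight Bd for the tangential part. -/
def Good2 (k al g ze : ℝ) (Om G Bd : A) (x : B.Pt) : Prop :=
  ∀ R l A0 A1 A2 : ℝ, B.val x G * R ^ 2 + B.val x Bd * (l ^ 2 + (A0 ^ 2 + A1 ^ 2 + A2 ^ 2)) +
      B.val x Om * (ze * R ^ 2 + 9 * (20 * k ^ 4) ^ 4 / ze *
        (l ^ 2 + B.val x K.De ^ 2 * R ^ 2 + (A0 ^ 2 + A1 ^ 2 + A2 ^ 2))) ≤
    gd (1 + g * B.val x K.De / 2) (g / 2) (-B.val x (K.lt Om)) (B.val x (K.R Om))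
      (B.val x (K.Ad 0 Om)) (B.val x (K.Ad 1 Om)) (B.val x (K.Ad 2 Om)) R l A0 A1 A2 +
      B.val x Om * ((2 * al - 1) * B.val x K.De') * R ^ 2

variable {K B}

theorem Is.cross (h : K.Is B) {k al be ga g ze : ℝ} (k1 : 1 ≤ k) (ha : |K.a| ≤ k)
    (hM : |K.M| ≤ k) (h1 : |al| ≤ k) (h2 : |be| ≤ k) (h3 : |ga| ≤ k) (g0 : 0 ≤ g) (g1 : g ≤ 1)
    (z0 : 0 < ze) (z1 : ze ≤ 1) {x : B.Pt} {o : ℝ} (O0 : 0 ≤ o) (zone : o ≠ 0 → K.Zone B k x)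
    (u : A) : o * -(ze * B.md x (K.R u) ^ 2 + 9 * (20 * k ^ 4) ^ 4 / ze *
        (B.md x (K.S u) ^ 2 + B.md x (K.Ad 2 u) ^ 2)) ≤ o *
      (2 * g * (1 - al) * B.val x K.De' * B.ip x (K.R u) (K.S u) +
        (4 * g * B.val x K.De * B.val x K.r + 2 * be * B.val x K.r) * B.ip x (K.R u) (K.T u) +
        (8 - 2 * be) * g * B.val x K.r * B.ip x (K.T u) (K.S u) +
        -(2 * ga * g * K.a * B.val x (K.w 2)) * B.ip x (ci A * K.T u) (K.S u) +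
        2 * ga * K.a * B.val x (K.w 2) * B.ip x (ci A * K.T u) (K.R u)) := by
  by_cases c : o = 0
  · rw [c, zero_mul, zero_mul]
  refine mul_le_mul_of_nonneg_left ?_ O0
  obtain ⟨b1, b2, b3, b4⟩ := h.zone_bd k1 ha hM (zone c)
  have w1 := h.abs_w 2 x
  have k2 : k ≤ k ^ 2 := le_self_pow₀ k1 (by norm_num)
  have k3 : k ^ 2 ≤ k ^ 3 := pow_le_pow_right₀ k1 (by norm_num)
  have k4 : k ^ 3 ≤ k ^ 4 := pow_le_pow_right₀ k1 (by norm_num)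
  have g2 : |g| ≤ 1 := abs_le.2 ⟨by linarith, g1⟩
  have mu : ∀ {p q s t : ℝ}, |p| ≤ s → |q| ≤ t → |p * q| ≤ s * t := fun a b =>
    (abs_mul _ _).le.trans (mul_le_mul a b (abs_nonneg _) ((abs_nonneg _).trans a))
  have n2 : |(2 : ℝ)| ≤ 2 := by norm_num
  have n4 : |(4 : ℝ)| ≤ 4 := by norm_num
  have a1 : |1 - al| ≤ 2 * k := abs_le.2 ⟨by linarith [(abs_le.1 h1).2],
    by linarith [(abs_le.1 h1).1]⟩
  have a2 : |8 - 2 * be| ≤ 10 * k := abs_le.2 ⟨by linarith [(abs_le.1 h2).2],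
    by linarith [(abs_le.1 h2).1]⟩
  have i4 := abs_ip_le x (ci A * K.T u) (K.S u)
  have i5 := abs_ip_le x (ci A * K.T u) (K.R u)
  rw [h.is.md_ci] at i4 i5
  exact cross_le (k := 20 * k ^ 4) (by linarith) z0 z1
    ((mu (mu (mu n2 g2) a1) b3).trans (by linarith))
    (((abs_add_le _ _).trans (add_le_add (mu (mu (mu n4 g2) b2) b1) (mu (mu n2 h2) b1))).trans
      (by linarith)) ((mu (mu a2 g2) b1).trans (by linarith))
    ((abs_neg _).le.trans ((mu (mu (mu (mu n2 h3) g2) ha) w1).trans (by linarith)))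
    ((mu (mu (mu n2 h3) ha) w1).trans (by linarith))
    (abs_ip_le x (K.R u) (K.S u)) (abs_ip_le x (K.R u) (K.T u))
    (abs_ip_le x (K.T u) (K.S u)) i4 i5 (md_nonneg _ _) (md_nonneg _ _) (md_nonneg _ _)
    ((b4 u).trans (mul_le_mul_of_nonneg_right (by linarith)
      (add_nonneg (md_nonneg _ _) (md_nonneg _ _))))

theorem Is.md_S (h : K.Is B) (x : B.Pt) (u : A) :
    B.md x (K.S u) ^ 2 + B.md x (K.Ad 2 u) ^ 2 ≤ B.md x (K.lt u) ^ 2 +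
      B.val x K.De ^ 2 * B.md x (K.R u) ^ 2 +
      (B.md x (K.Ad 0 u) ^ 2 + B.md x (K.Ad 1 u) ^ 2 + B.md x (K.Ad 2 u) ^ 2) := by
  obtain ⟨l1, l2⟩ := h.ip_lt x u
  have k : ∀ p s : ℝ, s ^ 2 ≤ (p + 2 * s) ^ 2 + p ^ 2 := fun p s => by
    nlinarith [sq_nonneg (p + s), sq_nonneg s]
  have k1 := k (B.val x K.De * B.val x (K.R u)) (B.val x (K.S u))
  have k2 := k (B.val x K.De * B.im x (K.R u)) (B.im x (K.S u))
  rw [md_sq x (K.S u), md_sq x (K.lt u), md_sq x (K.R u), l1, l2]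
  nlinarith [sq_nonneg (B.md x (K.Ad 0 u)), sq_nonneg (B.md x (K.Ad 1 u))]

theorem Is.vcore2 (h : K.Is B) {k al be ga g ze : ℝ} (k1 : 1 ≤ k) (ha : |K.a| ≤ k)
    (hM : |K.M| ≤ k) (h1 : |al| ≤ k) (h2 : |be| ≤ k) (h3 : |ga| ≤ k) (g0 : 0 ≤ g) (g1 : g ≤ 1)
    (z0 : 0 < ze) (z1 : ze ≤ 1) {Om G Bd : A} (hO : B.Wt Om) (hG : G ∈ B.K ∧ B.Re G)
    (hB : Bd ∈ B.K ∧ B.Re Bd)
    (zone : ∀ x, B.val x Om ≠ 0 → K.Zone B k x) (H : ∀ x, K.Good2 B k al g ze Om G Bd x) (u : A) :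
    B.nsq G (K.R u) + (B.nsq Bd (K.lt u) + ∑ i, B.nsq Bd (K.Ad i u)) ≤
      -(2 * B.bil Om (K.Op al be ga u) (rl A g * K.S u - K.R u)) := by
  have id := h.vf_id al be ga g hO.K hO.re u
  have kS := h.sS.dv.K_D _ hO.K
  have kR := h.sR.dv.K_D _ hO.K
  have kA := fun i => (h.sA i).dv.K_D _ hO.K
  have rS := h.sS.isRe hO.re
  have rR := h.sR.isRe hO.re
  have rA := fun i => (h.sA i).isRe hO.re
  have := h.is.list [(-1, G, K.R u, K.R u), (-1, Bd, K.lt u, K.lt u), (-1, Bd, K.Ad 0 u, K.Ad 0 u),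
    (-1, Bd, K.Ad 1 u, K.Ad 1 u), (-1, Bd, K.Ad 2 u, K.Ad 2 u),
    (-2, K.S Om, K.R u, K.R u), (-g, K.De * K.S Om, K.R u, K.R u),
    (-1, K.De * K.R Om, K.R u, K.R u), (2 * g, K.R Om, K.S u, K.S u),
    (2 * g, K.De * K.R Om, K.R u, K.S u),
    (1, K.R Om, K.Ad 0 u, K.Ad 0 u), (-g, K.S Om, K.Ad 0 u, K.Ad 0 u),
    (2 * g, K.Ad 0 Om, K.Ad 0 u, K.S u), (-2, K.Ad 0 Om, K.Ad 0 u, K.R u),
    (1, K.R Om, K.Ad 1 u, K.Ad 1 u), (-g, K.S Om, K.Ad 1 u, K.Ad 1 u),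
    (2 * g, K.Ad 1 Om, K.Ad 1 u, K.S u), (-2, K.Ad 1 Om, K.Ad 1 u, K.R u),
    (1, K.R Om, K.Ad 2 u, K.Ad 2 u), (-g, K.S Om, K.Ad 2 u, K.Ad 2 u),
    (2 * g, K.Ad 2 Om, K.Ad 2 u, K.S u), (-2, K.Ad 2 Om, K.Ad 2 u, K.R u),
    (2 * al - 1, Om * K.De', K.R u, K.R u), (2 * g * (1 - al), Om * K.De', K.R u, K.S u),
    (4 * g, Om * K.De * K.r, K.R u, K.T u), ((8 - 2 * be) * g, Om * K.r, K.T u, K.S u),
    (2 * be, Om * K.r, K.T u, K.R u), (-(2 * ga * g), Om * K.ca * K.w 2, ci A * K.T u, K.S u),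
    (2 * ga, Om * K.ca * K.w 2, ci A * K.T u, K.R u)] (by
      simp only [List.forall_mem_cons, List.not_mem_nil, IsEmpty.forall_iff, implies_true,
        and_true]
      have m := fun a => B.K.mul_mem_right a hO.K
      exact ⟨hG, hB, hB, hB, hB, ⟨kS, rS⟩,
        ⟨B.K.mul_mem_left _ kS, h.re_De.mul rS⟩, ⟨B.K.mul_mem_left _ kR, h.re_De.mul rR⟩,
        ⟨kR, rR⟩, ⟨B.K.mul_mem_left _ kR, h.re_De.mul rR⟩, ⟨kR, rR⟩, ⟨kS, rS⟩, ⟨kA 0, rA 0⟩,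
        ⟨kA 0, rA 0⟩, ⟨kR, rR⟩, ⟨kS, rS⟩, ⟨kA 1, rA 1⟩, ⟨kA 1, rA 1⟩, ⟨kR, rR⟩, ⟨kS, rS⟩,
        ⟨kA 2, rA 2⟩, ⟨kA 2, rA 2⟩, ⟨m _, hO.re.mul h.re_De'⟩, ⟨m _, hO.re.mul h.re_De'⟩,
        ⟨B.K.mul_mem_right _ (m _), (hO.re.mul h.re_De).mul h.re_r⟩, ⟨m _, hO.re.mul h.re_r⟩,
        ⟨m _, hO.re.mul h.re_r⟩,
        ⟨B.K.mul_mem_right _ (m _), (hO.re.mul h.re_a).mul (h.re_w 2)⟩,
        ⟨B.K.mul_mem_right _ (m _), (hO.re.mul h.re_a).mul (h.re_w 2)⟩⟩) fun x => by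
      have H1 := H x (B.val x (K.R u)) (B.val x (K.lt u)) (B.val x (K.Ad 0 u))
        (B.val x (K.Ad 1 u)) (B.val x (K.Ad 2 u))
      have H2 := H x (B.im x (K.R u)) (B.im x (K.lt u)) (B.im x (K.Ad 0 u))
        (B.im x (K.Ad 1 u)) (B.im x (K.Ad 2 u))
      have O0 := hO.pos x
      have cr := h.cross k1 ha hM h1 h2 h3 g0 g1 z0 z1 (O0 := O0) (zone x) u
      obtain ⟨l1, l2⟩ := h.ip_lt x u
      have l3 := (h.ip_lt x Om).1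
      have c0 : 0 ≤ B.val x Om * (9 * (20 * k ^ 4) ^ 4 / ze) := by positivity
      have s1 := mul_le_mul_of_nonneg_left (h.md_S x u) c0
      simp only [List.map_cons, List.map_nil, List.sum_cons, List.sum_nil, h.is.val_mul h.re_De,
        h.is.val_mul hO.re, h.is.val_mul (hO.re.mul h.re_De), h.is.val_mul (hO.re.mul h.re_a),
        h.val_a]
      generalize 9 * (20 * k ^ 4) ^ 4 / ze = C at H1 H2 cr s1
      generalize B.ip x (ci A * K.T u) (K.S u) = p4 at cr ⊢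
      generalize B.ip x (ci A * K.T u) (K.R u) = p5 at cr ⊢
      rw [ip_comm x (K.T u) (K.R u)]
      generalize B.ip x (K.R u) (K.T u) = p2 at cr ⊢
      generalize B.ip x (K.T u) (K.S u) = p3 at cr ⊢
      refine (add_nonneg (add_nonneg (sub_nonneg.2 H1) (sub_nonneg.2 H2))
        (add_nonneg (sub_nonneg.2 cr) (sub_nonneg.2 s1))).trans (le_of_eq ?_)
      simp only [ip, md_sq, gd, l1, l2, l3]
      ring
  simp only [List.map_cons, List.map_nil, List.sum_cons, List.sum_nil] at this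
  simp only [nsq, Fin.sum_univ_three] at id ⊢
  rw [h.is.bil_comm (B.K.mul_mem_right _ hO.K) (hO.re.mul h.re_r) (K.T u) (K.R u)] at id this
  linarith

theorem Is.vcore (h : K.Is B) {k al be ga g ze : ℝ} (k1 : 1 ≤ k) (ha : |K.a| ≤ k)
    (hM : |K.M| ≤ k) (h1 : |al| ≤ k) (h2 : |be| ≤ k) (h3 : |ga| ≤ k) (g0 : 0 ≤ g) (g1 : g ≤ 1)
    (z0 : 0 < ze) (z1 : ze ≤ 1) {Om G Bd : A} (hO : B.Wt Om) (hG : B.Wt G) (hB : B.Wt Bd)
    (zone : ∀ x, B.val x Om ≠ 0 → K.Zone B k x) (H : ∀ x, K.Good B k al g ze Om G Bd x) (u : A) :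
    K.en B G u ≤ K.en B Bd u - 2 * B.bil Om (K.Op al be ga u) (rl A g * K.S u - K.R u) := by
  have k : G - Bd ∈ B.K ∧ B.Re (G - Bd) := ⟨B.K.sub_mem hG.K hB.K, hG.re.sub hB.re⟩
  have := h.vcore2 k1 ha hM h1 h2 h3 g0 g1 z0 z1 hO k k zone (fun x R l A0 A1 A2 => by
    have := H x R l A0 A1 A2
    rw [val_sub]
    linarith) u
  simp only [en, nsq_sub_w, Fin.sum_univ_three] at this ⊢
  linarith

end KW

end Vale.Agent.P354XI
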