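import Vale.Agent.P354XI.Mult
import Vale.Agent.P354XI.Vc
import Vale.Agent.P354XI.Pert

/-!
The bridge from the ring of fields to the Kerr wave frame.
-/

open scoped ContDiff
open Set
open Complex (I)

namespace Vale.Agent.P354XI

open Vale.Agent.P354XG (Der D_mul D_add D_sub D_neg D_alg D_num D_one D_zero)
open Vale.Agent.P354XT Vale.Agent.P354YF Ibp

variable {A : Type} [CommRing A] [Algebra ℂ A]

/-- The frame. -/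
def kw (Φ : Fld A) (M a : ℝ) : KW A := ⟨Φ.T, Φ.R, Φ.L, Φ.w, Φ.r, a, M⟩

/-- The partial derivatives. -/
noncomputable def dt (φ : ℝ × ℝ → ℝ) (p : ℝ × ℝ) : ℝ := fderiv ℝ φ p (1, 0)
noncomputable def dr (φ : ℝ × ℝ → ℝ) (p : ℝ × ℝ) : ℝ := fderiv ℝ φ p (0, 1)

theorem sm_fd {φ : ℝ × ℝ → ℝ} (hφ : ContDiff ℝ ∞ φ) {v : ℝ × ℝ → ℝ × ℝ} (hv : ContDiff ℝ ∞ v) :
    ContDiff ℝ ∞ fun p => fderiv ℝ φ p (v p) :=
  (hφ.fderiv_right (m := ∞) le_rfl).clm_apply hv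

theorem fd_dec (φ : ℝ × ℝ → ℝ) (p : ℝ × ℝ) (F : ℝ) :
    fderiv ℝ φ p (-F, 1) = dr φ p - F * dt φ p := by
  rw [show ((-F, 1) : ℝ × ℝ) = (0, 1) - F • (1, 0) by simp, map_sub, map_smul]; rfl

theorem d_out {φ : ℝ × ℝ → ℝ} {S : Set (ℝ × ℝ)} (hS : IsClosed S) (e : ∀ p, p ∉ S → φ p = 0)
    {p : ℝ × ℝ} (hp : p ∉ S) : dt φ p = 0 ∧ dr φ p = 0 := by
  have : φ =ᶠ[nhds p] fun _ => 0 :=
    Filter.mem_of_superset (hS.isOpen_compl.mem_nhds hp) fun q hq => e q hq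
  simp [dt, dr, this.fderiv_eq]

theorem words_one : words 1 = insert [] (Finset.univ.image fun a : Fin 5 => [a]) := by
  ext J
  rw [mem_words]
  match J with
  | [] => simp
  | [a] => simp
  | a :: b :: J => simp

variable {Φ : Fld A} (h : Φ.Is)
include h

theorem kw_is (M a : ℝ) : (kw Φ M a).Is Φ.B where
  is := h.B
  sT := h.skT
  sR := h.skR
  sL := h.skL
  re_r := h.re_r
  re_w := h.wre
  R_T f := (h.TR f).symm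
  L_T i f := (h.TL i f).symm
  L_R i f := (h.RL i f).symm
  LL := h.LL
  T_r := h.T_r
  R_r := h.R_r
  L_r := h.L_r
  T_w := h.Tw
  R_w := h.Rw
  Lw0 := h.Lw0
  Lw1 := h.Lw1
  Lw2 := h.Lw2
  one := by have := h.one; rwa [Fin.sum_univ_three] at this

theorem let_of : Let Φ.B Φ.X where
  is := h.B
  sk := h.sk
  cm := by
    have z : ∀ {a b : Fin 5}, (∀ u, Φ.X a (Φ.X b u) = Φ.X b (Φ.X a u)) →
        (∀ u, Φ.X a (Φ.X b u) - Φ.X b (Φ.X a u) = 0) ∨ ∃ c,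
        (∀ u, Φ.X a (Φ.X b u) - Φ.X b (Φ.X a u) = Φ.X c u) ∨
          ∀ u, Φ.X a (Φ.X b u) - Φ.X b (Φ.X a u) = -Φ.X c u :=
      fun e => Or.inl fun u => sub_eq_zero.2 (e u)
    have n : ∀ {a b c : Fin 5}, (∀ u, Φ.X a (Φ.X b u) - Φ.X b (Φ.X a u) = -Φ.X c u) →
        ∀ u, Φ.X b (Φ.X a u) - Φ.X a (Φ.X b u) = Φ.X c u := fun e u => by
      linear_combination -e u
    have n0 : ∀ u, Φ.X 2 (Φ.X 3 u) - Φ.X 3 (Φ.X 2 u) = -Φ.X 4 u := h.LL 0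
    have n1 : ∀ u, Φ.X 3 (Φ.X 4 u) - Φ.X 4 (Φ.X 3 u) = -Φ.X 2 u := h.LL 1
    have n2 : ∀ u, Φ.X 4 (Φ.X 2 u) - Φ.X 2 (Φ.X 4 u) = -Φ.X 3 u := h.LL 2
    exact fin5
      (fin5 (z fun _ => rfl) (z h.TR) (z (h.TL 0)) (z (h.TL 1)) (z (h.TL 2)))
      (fin5 (z fun u => (h.TR u).symm) (z fun _ => rfl) (z (h.RL 0)) (z (h.RL 1)) (z (h.RL 2)))
      (fin5 (z fun u => (h.TL 0 u).symm) (z fun u => (h.RL 0 u).symm) (z fun _ => rfl)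
        (Or.inr ⟨4, Or.inr n0⟩) (Or.inr ⟨3, Or.inl (n n2)⟩))
      (fin5 (z fun u => (h.TL 1 u).symm) (z fun u => (h.RL 1 u).symm) (Or.inr ⟨4, Or.inl (n n0)⟩)
        (z fun _ => rfl) (Or.inr ⟨2, Or.inr n1⟩))
      (fin5 (z fun u => (h.TL 2 u).symm) (z fun u => (h.RL 2 u).symm) (Or.inr ⟨3, Or.inr n2⟩)
        (Or.inr ⟨2, Or.inl (n n1)⟩) (z fun _ => rfl))

/-- The Teukolsky operator on sections. -/
theorem P_eq (M a s : ℝ) {u : A} (hu : u ∈ Φ.Sp) : Φ.P s Φ.s M a u =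
    (kw Φ M a).Op (1 - s) (2 * (1 - 2 * s)) (-(4 * Φ.s)) u + rl A (s ^ 2 - s) * u := by
  have k := kw_is h M a
  have sp := h.spin _ (h.spX 0 u hu)
  have ee := k.ee
  have c1 : algebraMap ℂ A (-(I * Φ.s)) = -(ci A * rl A Φ.s) := by simp [ci, rl]
  have c2 : algebraMap ℂ A (2 * Φ.s * a * I) = 2 * rl A Φ.s * rl A a * ci A := by
    simp [ci, rl, map_ofNat]
  have c3 : rl A (-(4 * Φ.s)) = -(2 * 2 * rl A Φ.s) := by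
    rw [rl_neg, show (4 : ℝ) = 2 * 2 by norm_num, rl_mul, rl_mul, rl_two]
  have te := k.T_e
  have tb := k.tab
  rw [c1, Fin.sum_univ_three, Fld.X0] at sp
  simp only [KW.e, Matrix.cons_val] at ee
  simp only [Fld.P, Fld.De, Fld.Kh, KW.Op, KW.W0, KW.S_ap, KW.Ad_ap, Fin.sum_univ_three, c2, c3,
    KW.De, KW.De', KW.W, KW.ca, KW.cM, KW.e, Matrix.cons_val, D_add, D_mul, D_sub, D_neg, D_one,
    D_rl, pow_two, rl_mul, rl_two]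
  simp only [kw] at *
  simp only [tb, h.Tw, h.TL]
  linear_combination (2 * rl A a * Φ.w 2) * sp - (rl A a * rl A a * Φ.T (Φ.T u)) * ee

theorem val_fn {φ : ℝ × ℝ → ℝ} (hφ : ContDiff ℝ ∞ φ) (x : Φ.B.Pt) :
    Φ.B.val x (Φ.fn φ) = φ (Φ.pr x) := by rw [val, h.ev φ hφ, Complex.ofReal_re]

theorem val_T {φ : ℝ × ℝ → ℝ} (hφ : ContDiff ℝ ∞ φ) (x : Φ.B.Pt) :
    Φ.B.val x (Φ.T (Φ.fn φ)) = dt φ (Φ.pr x) := by
  rw [h.Tf φ hφ, val_fn h (sm_fd hφ contDiff_const), dt]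

theorem val_R {φ : ℝ × ℝ → ℝ} (hφ : ContDiff ℝ ∞ φ) (x : Φ.B.Pt) :
    Φ.B.val x (Φ.R (Φ.fn φ)) = dr φ (Φ.pr x) - Φ.f (Φ.pr x).2 * dt φ (Φ.pr x) := by
  rw [h.Rf φ hφ, val_fn h (sm_fd hφ (v := fun p => (-Φ.f p.2, 1))
    ((h.sf.comp contDiff_snd).neg.prodMk contDiff_const)), fd_dec]

theorem val_lt (M a : ℝ) {φ : ℝ × ℝ → ℝ} (hφ : ContDiff ℝ ∞ φ) (x : Φ.B.Pt) :
    Φ.B.val x ((kw Φ M a).lt (Φ.fn φ)) = P354BF.De M a (Φ.pr x).2 *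
      (dr φ (Φ.pr x) - Φ.f (Φ.pr x).2 * dt φ (Φ.pr x)) +
      2 * (((Φ.pr x).2 ^ 2 + a ^ 2) * dt φ (Φ.pr x)) := by
  have k := kw_is h M a
  rw [(k.ip_lt x _).1, KW.S_ap, val_add, h.B.val_mul k.re_W, h.B.val_mul k.re_a, k.val_De, k.val_W]
  simp only [kw, val_T h hφ, val_R h hφ, h.Lf φ hφ, val_zero, h.val_r, P354BF.De]
  ring

theorem val_Ad (M a : ℝ) {φ : ℝ × ℝ → ℝ} (hφ : ContDiff ℝ ∞ φ) (x : Φ.B.Pt) (i : Fin 3) :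
    Φ.B.val x ((kw Φ M a).Ad i (Φ.fn φ)) =
      a * Φ.B.val x ((kw Φ M a).e i) * dt φ (Φ.pr x) := by
  have k := kw_is h M a
  rw [KW.Ad_ap, val_add, h.B.val_mul (k.re_a.mul (k.re_e i)), h.B.val_mul k.re_a, k.val_a]
  simp only [kw, val_T h hφ, h.Lf φ hφ, val_zero, zero_add]

theorem val_e (M a : ℝ) (x : Φ.B.Pt) : Φ.B.val x ((kw Φ M a).e 0) ^ 2 +
    Φ.B.val x ((kw Φ M a).e 1) ^ 2 + Φ.B.val x ((kw Φ M a).e 2) ^ 2 ≤ 1 := by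
  have k := kw_is h M a
  have := congrArg (Φ.B.val x) k.ee
  rw [val_add, val_add, val_sub, h.B.val_mul (k.re_e 0), h.B.val_mul (k.re_e 1),
    h.B.val_mul (k.re_e 2), h.B.val_mul (k.re_w 2), val_one] at this
  nlinarith [mul_self_nonneg (Φ.B.val x ((kw Φ M a).w 2))]

theorem val_jq (x : Φ.B.Pt) (u : A) : Φ.B.val x (Φ.jq 1 u) = qq Φ.B Φ.X x 1 u := by
  rw [Fld.jq, h.val_lv, words_one, Finset.sum_insert (by simp),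
    Finset.sum_image fun a _ b _ e => by simpa using e]
  rfl

theorem fnK {S : Set (ℝ × ℝ)} (hS : IsCompact S) (sub : S ⊆ Φ.Om) {w : ℝ × ℝ → ℝ}
    (hw : ContDiff ℝ ∞ w) (e : ∀ p, p ∉ S → w p = 0) : Φ.fn w ∈ Φ.B.K :=
  h.cs S hS sub _ fun x hx => by rw [h.ev w hw, e _ hx, Complex.ofReal_zero]

end Vale.Agent.P354XI
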