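import Vale.Agent.P354XI.MCv

/-!
The multiplier estimate with explicit constants.
-/

open scoped ContDiff
open Set

namespace Vale.Agent.P354XI

open Vale.Agent.P354XG (Der D_mul D_add D_sub D_neg D_alg D_num D_one D_zero)
open Vale.Agent.P354XT Vale.Agent.P354YF Ibp
open Vale.Agent.P354BF (De rp)

/-- The weights with the radial growth ka. -/
structure Dk (S : Set (ℝ × ℝ)) (rI Rs ka : ℝ) (ψ G bd : ℝ × ℝ → ℝ) : Prop where
  s1 : ContDiff ℝ ∞ ψ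
  s2 : ContDiff ℝ ∞ G
  s3 : ContDiff ℝ ∞ bd
  pos : ∀ p ∈ S, 0 ≤ ψ p
  dec : ∀ p ∈ S, ∃ al be ga : ℝ, 0 ≤ al ∧ 0 ≤ be ∧ 0 ≤ ga ∧ G p = al + be + ga ∧
    (be ≠ 0 → p.2 ≤ rI) ∧ (ga ≠ 0 → Rs ≤ p.2) ∧ |dt ψ p + al + ga| ≤ bd p ∧
    |dr ψ p - be - ka * ψ p + ga| ≤ bd p

variable {A : Type} [CommRing A] [Algebra ℂ A] {Φ : Fld A} {k c rm rI Rs Rb N M a ka eps : ℝ}
  {S : Set (ℝ × ℝ)} {φ G bd : ℝ × ℝ → ℝ} {del : Fin 5 → Fin 5 → A}

theorem Dk.grad {F : ℝ → ℝ} (D : Dk S rI Rs ka φ G bd) (U : Up k rm Rb N M a F)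
    (L : Lo c rm rI Rs Rb M a F) (c1 : c ≤ 1) (k0 : 0 ≤ ka) {p : ℝ × ℝ} (hp : p ∈ S)
    (r1 : rm ≤ p.2) (r2 : p.2 ≤ Rb) : 0 ≤ G p ∧ 0 ≤ bd p ∧ |dt φ p| ≤ G p + bd p ∧
      |dr φ p - F p.2 * dt φ p| ≤ 2 * k * (G p + bd p) + ka * φ p ∧
      c * G p - 2 * k * bd p ≤ dr φ p - F p.2 * dt φ p := by
  obtain ⟨al, be, ga, a0, b0, g0, e, -, hg, d1, d2⟩ := D.dec p hp
  have q := mul_nonneg k0 (D.pos p hp)
  have k1 := U.k1
  have f1 := U.hF _ r1 r2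
  have f2 := (L.h1 _ r1 r2).1
  have f0 := L.c0.le.trans f2
  have z := (abs_nonneg _).trans d1
  obtain ⟨d3, d4⟩ := abs_le.1 d1
  obtain ⟨d5, d6⟩ := abs_le.1 d2
  have t : |dt φ p| ≤ G p + bd p := abs_le.2 ⟨by linarith, by linarith⟩
  have t2 : |F p.2 * dt φ p| ≤ k * (G p + bd p) := by
    rw [abs_mul, abs_of_nonneg f0]; exact mul_le_mul f1 t (abs_nonneg _) (by linarith)
  have t3 := mul_le_mul_of_nonneg_right k1 (show 0 ≤ G p + bd p by linarith)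
  have t4 : c * ga ≤ (F p.2 - 1) * ga := by
    by_cases v : ga = 0
    · rw [v, mul_zero, mul_zero]
    · exact mul_le_mul_of_nonneg_right (L.h3 _ (hg v) r2).1 g0
  refine ⟨by linarith, z, t, abs_le.2 ⟨by linarith [(abs_le.1 t2).2],
    by linarith [(abs_le.1 t2).1]⟩, ?_⟩
  rw [e]
  linarith [mul_le_mul_of_nonneg_left d4 f0, mul_le_mul_of_nonneg_right f2 a0,
    mul_le_mul_of_nonneg_right c1 b0, mul_le_mul_of_nonneg_right f1 z,
    mul_le_mul_of_nonneg_right k1 z]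

variable (h : Φ.Is) (U : Up k rm Rb N M a Φ.f) (L : Lo c rm rI Rs Rb M a Φ.f)
  (D : Dk S rI Rs ka φ G bd) (C : Cut Φ S rm Rb eps φ G bd del)
include h U L D C

omit U L in
theorem wt_fn : Φ.B.Wt (Φ.fn φ) := ⟨fnK h C.cp C.sub D.s1 fun p hp => (C.out p hp).1, h.re _ D.s1,
  fun x => by
    rw [val_fn h D.s1]
    by_cases e : Φ.pr x ∈ S
    exacts [D.pos _ e, (C.out _ e).1.ge]⟩

/-- The current. -/
theorem step1 {la s1 s2 s : ℝ} (k0 : 0 ≤ ka) (l0 : 0 < la) (l1 : la ≤ 1) (hs : |s| ≤ N)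
    (hN : |Φ.s| ≤ N) (H1 : ∀ r, rm ≤ r → r ≤ Rb → 2 * la + 9 * (20 * k ^ 4) ^ 4 / la * De M a r ^ 2 ≤
      -(ka * ((1 + 1 / (4 * k ^ 2) * De M a r / 2) * De M a r)) + (1 - 2 * s) * (2 * r - 2 * M) + s1)
    (H2 : la + 9 * (20 * k ^ 4) ^ 4 / la ≤ ka * (1 / (4 * k ^ 2) / 2) + s2) (u : A) :
    c / (104 * k ^ 5) * (Jw Φ G (Φ.sq (Φ.R u)) + Jw Φ G (dT Φ M a u)) -
      208 * k ^ 3 * (Jw Φ bd (Φ.sq (Φ.R u)) + Jw Φ bd (dT Φ M a u)) +
      (la - s1) * Jw Φ φ (Φ.sq (Φ.R u)) + (la - s2) * Jw Φ φ (dT Φ M a u) ≤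
      -(2 * Φ.B.bil (Φ.fn φ) ((kw Φ M a).Op (1 - s) (2 * (1 - 2 * s)) (-(4 * Φ.s)) u)
        (mY Φ M a (1 / (4 * k ^ 2)) u)) := by
  have K := kw_is h M a
  have k1 := U.k1
  have n := U.hN
  have W := wt_fn h D C
  have kG := fnK h C.cp C.sub D.s2 fun p hp => (C.out p hp).2.1
  have kb := fnK h C.cp C.sub D.s3 fun p hp => (C.out p hp).2.2
  have g1 : 1 / (4 * k ^ 2) ≤ 1 := by
    rw [div_le_one (by positivity)]; nlinarith
  have m : ∀ t : ℝ, rl A (c / (104 * k ^ 5)) * Φ.fn G - rl A (208 * k ^ 3) * Φ.fn bd +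
      rl A t * Φ.fn φ ∈ Φ.B.K ∧ Φ.B.Re (rl A (c / (104 * k ^ 5)) * Φ.fn G -
      rl A (208 * k ^ 3) * Φ.fn bd + rl A t * Φ.fn φ) := fun t =>
    ⟨Φ.B.K.add_mem (Φ.B.K.sub_mem (Φ.B.K.mul_mem_left _ kG) (Φ.B.K.mul_mem_left _ kb))
      (Φ.B.K.mul_mem_left _ W.K), (((h.B.re_rl _).mul (h.re _ D.s2)).sub
        ((h.B.re_rl _).mul (h.re _ D.s3))).add ((h.B.re_rl _).mul W.re)⟩
  obtain ⟨u1, u2⟩ := abs_le.1 hs
  obtain ⟨u3, u4⟩ := abs_le.1 hN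
  have := K.vcore2 (al := 1 - s) (be := 2 * (1 - 2 * s)) (ga := -(4 * Φ.s)) k1 U.ha U.hM
    (abs_le.2 ⟨by linarith, by linarith⟩) (abs_le.2 ⟨by linarith, by linarith⟩)
    (abs_le.2 ⟨by linarith, by linarith⟩) (by positivity) g1 l0 l1 W (m (la - s1)) (m (la - s2))
    (fun x e => by
      rw [val_fn h D.s1] at e
      have := C.rad _ (not_not.1 fun v => e (C.out _ v).1)
      exact zone h U this.1 this.2) (fun x R l A0 A1 A2 => by
      have e1 : Φ.B.val x (kw Φ M a).De = De M a (Φ.pr x).2 := by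
        rw [K.val_De, De]; simp only [kw, h.val_r]
      have e2 : Φ.B.val x (kw Φ M a).De' = 2 * (Φ.pr x).2 - 2 * M := by
        rw [K.val_De']; simp only [kw, h.val_r]
      have e3 : Φ.B.val x ((kw Φ M a).R (Φ.fn φ)) = _ := val_R h D.s1 x
      simp only [val_add, val_sub, h.B.val_mul (h.B.re_rl _), h.B.val_rl, val_fn h D.s1,
        val_fn h D.s2, val_fn h D.s3, val_lt h M a D.s1, val_Ad h M a D.s1, e1, e2, e3]
      by_cases e : Φ.pr x ∈ S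
      · obtain ⟨r1, r2⟩ := C.rad _ e
        obtain ⟨al, be, ga, a0, b0, g0, eG, hb, hg, d1, d2⟩ := D.dec _ e
        have p := pt U L r1 r2 (e1 ▸ (K.zone_bd k1 U.ha U.hM (zone h U r1 r2)).2.1) (val_e h M a x)
          a0 b0 g0 hb hg d1 d2 R l A0 A1 A2
        have q0 := D.pos _ e
        have q1 := mul_le_mul_of_nonneg_right (H1 _ r1 r2) (mul_nonneg q0 (sq_nonneg R))
        have q2 := mul_le_mul_of_nonneg_right H2 (mul_nonneg q0
          (show 0 ≤ l ^ 2 + (A0 ^ 2 + A1 ^ 2 + A2 ^ 2) by positivity))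
        have q3 := mul_nonneg (show 0 ≤ 1 - 1 / (4 * k ^ 2) / 2 by linarith) (mul_nonneg k0
          (mul_nonneg q0 (show 0 ≤ A0 ^ 2 + A1 ^ 2 + A2 ^ 2 by positivity)))
        rw [eG]
        generalize gd _ _ _ _ _ _ _ _ _ _ _ _ = z at p ⊢
        refine sub_nonneg.1 ((add_nonneg (add_nonneg (sub_nonneg.2 p) (sub_nonneg.2 q1))
          (add_nonneg (sub_nonneg.2 q2) q3)).trans (le_of_eq ?_))
        ring
      · obtain ⟨o1, o2, o3⟩ := C.out _ e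
        obtain ⟨o4, o5⟩ := d_out C.cp.isClosed (fun p hp => (C.out p hp).1) e
        simp [o1, o2, o3, o4, o5, gd]) u
  simp only [nsq_add_w, nsq_sub_w, nsq_rl_w, Fin.sum_univ_three] at this
  simp only [dT, Jw_add, Fin.sum_univ_three]
  exact le_trans (le_of_eq (by simp only [Jw, nsq, bil, Fld.sq, kw]; ring)) this

omit L in
/-- The source. -/
theorem step2 {la g z : ℝ} (l0 : 0 < la) (g0 : 0 ≤ g) (g1 : g ≤ 1) (hz : |z| ≤ k ^ 2) (F u : A) :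
    -(2 * Φ.B.bil (Φ.fn φ) (F - rl A z * u) (mY Φ M a g u)) ≤
      la / 2 * (Jw Φ φ (Φ.sq (Φ.R u)) + Jw Φ φ (dT Φ M a u)) +
        144 * k ^ 8 / la * (Jw Φ φ (Φ.sq F) + Jw Φ φ (Φ.sq u)) := by
  have w : Wv S φ := ⟨D.s1, fun p hp => (C.out p hp).1⟩
  have k1 := U.k1
  have := Jw_list h C.cp C.sub [(2, φ, (F - rl A z * u) * Φ.B.c (mY Φ M a g u)),
    (la / 2, φ, Φ.sq (Φ.R u)), (la / 2, φ, dT Φ M a u), (144 * k ^ 8 / la, φ, Φ.sq F),
    (144 * k ^ 8 / la, φ, Φ.sq u)] (by simp [w]) fun x hx => by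
      simp only [List.map_cons, List.map_nil, List.sum_cons, List.sum_nil, h.val_sq, h.B.val_ip]
      obtain ⟨r1, r2⟩ := C.rad _ hx
      have y := (conv h k1 U.ha U.hM g0 g1 (zone h U r1 r2) u).2.2
      have i := (abs_le.1 (abs_ip_le x (F - rl A z * u) (mY Φ M a g u))).1
      have m := md_sub x F (rl A z * u)
      rw [md_mul, h.B.md_rl] at m
      have m2 := sq2 (md_nonneg _ _) (m.trans (add_le_add le_rfl
        (mul_le_mul_of_nonneg_right hz (md_nonneg x u))))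
      generalize Φ.B.md x (F - rl A z * u) = P at *
      generalize Φ.B.md x (mY Φ M a g u) = Y at *
      have k4 := mul_le_mul_of_nonneg_right (one_le_pow₀ (n := 4) k1) (sq_nonneg (Φ.B.md x F))
      have v1 : 2 * (P * Y) ≤ la / (72 * k ^ 4) * Y ^ 2 + 72 * k ^ 4 / la * P ^ 2 := by
        have : la / (72 * k ^ 4) * Y ^ 2 + 72 * k ^ 4 / la * P ^ 2 - 2 * (P * Y) =
          (la * Y - 72 * k ^ 4 * P) ^ 2 / (72 * k ^ 4 * la) := by field_simp; ring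
        exact sub_nonneg.1 (this ▸ by positivity)
      have v2 : la / (72 * k ^ 4) * Y ^ 2 ≤ la / 2 * (Φ.B.md x (Φ.R u) ^ 2 +
          Φ.B.val x (dT Φ M a u)) :=
        (mul_le_mul_of_nonneg_left y (by positivity)).trans (le_of_eq (by field_simp; ring))
      have v3 : 72 * k ^ 4 / la * P ^ 2 ≤ 144 * k ^ 8 / la * (Φ.B.md x F ^ 2 + Φ.B.md x u ^ 2) :=
        (mul_le_mul_of_nonneg_left (show P ^ 2 ≤ 2 * k ^ 4 * (Φ.B.md x F ^ 2 + Φ.B.md x u ^ 2) by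
          linarith) (by positivity)).trans (le_of_eq (by ring))
      refine (mul_nonneg (D.pos _ hx) (show 0 ≤ 2 * Φ.B.ip x (F - rl A z * u) (mY Φ M a g u) +
        la / 2 * (Φ.B.md x (Φ.R u) ^ 2 + Φ.B.val x (dT Φ M a u)) + 144 * k ^ 8 / la *
          (Φ.B.md x F ^ 2 + Φ.B.md x u ^ 2) by linarith)).trans (le_of_eq (by ring))
  simp only [List.map_cons, List.map_nil, List.sum_cons, List.sum_nil] at this
  have e : Φ.B.bil (Φ.fn φ) (F - rl A z * u) (mY Φ M a g u) = Jw Φ φ _ := rfl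
  linarith

/-- The perturbation. -/
theorem step3 (c1 : c ≤ 1) (k0 : 0 ≤ ka) (e0 : 0 ≤ eps) (u : A) :
    |Φ.B.bil (Φ.fn φ) (Φ.Q del u) (mY Φ M a (1 / (4 * k ^ 2)) u)| ≤ 375 * (eps * (2 * k + ka + 2)) *
      (Jw Φ φ (Φ.jq 1 u) + Jw Φ G (Φ.jq 1 u) + Jw Φ bd (Φ.jq 1 u)) := by
  have K := kw_is h M a
  have k1 := U.k1
  have W := wt_fn h D C
  have kG := fnK h C.cp C.sub D.s2 fun p hp => (C.out p hp).2.1
  have kb := fnK h C.cp C.sub D.s3 fun p hp => (C.out p hp).2.2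
  have g0 : 0 < 1 / (4 * k ^ 2) := by positivity
  have g1 : 1 / (4 * k ^ 2) * (4 * k ^ 2) = 1 := by field_simp
  generalize 1 / (4 * k ^ 2) = g at *
  have k2 : k ≤ k ^ 2 := le_self_pow₀ k1 (by norm_num)
  have ry : ∀ i, Φ.B.Re (![rl A g * (kw Φ M a).W, -1, 0, 0, rl A g * (kw Φ M a).ca] i) :=
    fin5 ((h.B.re_rl _).mul K.re_W) re_one.neg re_zero re_zero ((h.B.re_rl _).mul K.re_a)
  have hy : ∀ x, Φ.pr x ∈ S → ∀ i,
      Φ.B.md x (![rl A g * (kw Φ M a).W, -1, 0, 0, rl A g * (kw Φ M a).ca] i) ≤ 1 ∧ ∀ d,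
      Φ.B.md x (Φ.X d (![rl A g * (kw Φ M a).W, -1, 0, 0, rl A g * (kw Φ M a).ca] i)) ≤ 1 := by
    intro x hx
    have b1 := (K.zone_bd k1 U.ha U.hM (zone h U (C.rad _ hx).1 (C.rad _ hx).2)).1
    have b2 : |(kw Φ M a).a| ≤ k := U.ha
    have z : Φ.B.md x 0 ≤ 1 := by rw [md_zero]; exact zero_le_one
    have t1 : Φ.T (kw Φ M a).W = 0 := K.T_W
    have t2 : Φ.R (kw Φ M a).W = 2 * (kw Φ M a).r := K.R_W
    have t3 : ∀ i, Φ.L i (kw Φ M a).W = 0 := K.L_W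
    refine fin5 ⟨?_, fin5 ?_ ?_ ?_ ?_ ?_⟩ ⟨?_, fun d => ?_⟩ ⟨z, fun d => ?_⟩ ⟨z, fun d => ?_⟩
      ⟨?_, fun d => ?_⟩ <;>
      simp only [Matrix.cons_val, Fld.X0, Fld.X1, Fld.X2, Fld.X3, Fld.X4, D_mul, D_rl, t1, t2, t3,
        mul_zero, add_zero, D_neg, D_one, neg_zero, D_zero, KW.D_ca, z, md_neg, md_mul, h.B.md_rl,
        abs_of_pos g0]
    · rw [h.B.md_re K.re_W, K.val_W, abs_of_nonneg (by positivity)]
      nlinarith [pow_le_pow_left₀ (abs_nonneg _) b1 2, pow_le_pow_left₀ (abs_nonneg _) b2 2,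
        sq_abs (kw Φ M a).a, sq_abs (Φ.B.val x (kw Φ M a).r)]
    · rw [h.B.md_re re_two, val_two, abs_two, h.B.md_re K.re_r]; nlinarith
    · rw [h.B.md_re re_one, val_one, abs_one]
    · rw [h.B.md_re K.re_a, K.val_a]; nlinarith
  have vW : ∀ x, Φ.B.val x (rl A (eps * (2 * k + ka + 2)) * (Φ.fn φ + Φ.fn G + Φ.fn bd)) =
      eps * (2 * k + ka + 2) * (φ (Φ.pr x) + G (Φ.pr x) + bd (Φ.pr x)) := fun x => by
    rw [h.B.val_mul (h.B.re_rl _), h.B.val_rl, val_add, val_add, val_fn h D.s1, val_fn h D.s2,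
      val_fn h D.s3]
  have m0 : ∀ x, Φ.B.md x (Φ.fn φ) = |φ (Φ.pr x)| := fun x => by
    rw [h.B.md_re W.re, val_fn h D.s1]
  have m1 : ∀ x d {t : ℝ}, 0 ≤ t → |dt φ (Φ.pr x)| ≤ t →
      |dr φ (Φ.pr x) - Φ.f (Φ.pr x).2 * dt φ (Φ.pr x)| ≤ t → Φ.B.md x (Φ.X d (Φ.fn φ)) ≤ t := by
    intro x d t t0 t1 t2
    rw [h.B.md_re ((h.sk d).isRe W.re)]
    revert d
    exact fin5 (by rwa [Fld.X0, val_T h D.s1]) (by rwa [Fld.X1, val_R h D.s1])
      (by rwa [Fld.X2, h.Lf _ D.s1, val_zero, abs_zero])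
      (by rwa [Fld.X3, h.Lf _ D.s1, val_zero, abs_zero])
      (by rwa [Fld.X4, h.Lf _ D.s1, val_zero, abs_zero])
  have mu : ∀ {p q s t : ℝ}, 0 ≤ q → 0 ≤ s → p ≤ s → q ≤ t → p * q ≤ s * t :=
    fun a b c d => mul_le_mul c d a b
  have p := (let_of h).pert C.dre ry W.K W.re (W := rl A (eps * (2 * k + ka + 2)) *
    (Φ.fn φ + Φ.fn G + Φ.fn bd)) (Φ.B.K.mul_mem_left _ (Φ.B.K.add_mem (Φ.B.K.add_mem W.K kG) kb))
    (fun x b d i => by
      rw [vW, md_mul, md_mul, m0]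
      by_cases e : Φ.pr x ∈ S
      · obtain ⟨q1, q2, -⟩ := D.grad U L c1 k0 e (C.rad _ e).1 (C.rad _ e).2
        have q0 := D.pos _ e
        have := mu (md_nonneg _ _) (by positivity) (mul_le_mul_of_nonneg_left (hy x e i).1 q0)
          (C.del x e b d [] (mem_words.2 (by simp)))
        rw [abs_of_nonneg q0]
        refine this.trans (sub_nonneg.1 ((show 0 ≤ eps * ((2 * k + ka + 1) * φ (Φ.pr x) +
          (2 * k + ka + 2) * (G (Φ.pr x) + bd (Φ.pr x))) by positivity).trans (le_of_eq (by ring))))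
      · simp [C.out _ e])
    (fun x b d i j => by
      rw [vW, D_mul, D_mul]
      refine (md_add _ _ _).trans ?_
      rw [md_mul, md_mul, md_mul, m0]
      have w := md_add x (Φ.fn φ * Φ.X j (![rl A g * (kw Φ M a).W, -1, 0, 0,
        rl A g * (kw Φ M a).ca] i)) (![rl A g * (kw Φ M a).W, -1, 0, 0,
        rl A g * (kw Φ M a).ca] i * Φ.X j (Φ.fn φ))
      rw [md_mul, md_mul, m0] at w
      by_cases e : Φ.pr x ∈ S
      · obtain ⟨q1, q2, q3, q4, -⟩ := D.grad U L c1 k0 e (C.rad _ e).1 (C.rad _ e).2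
        have q0 := D.pos _ e
        rw [abs_of_nonneg q0] at w ⊢
        have q5 := m1 x j (by positivity) (q3.trans (by nlinarith [mul_nonneg k0 q0])) q4
        have v1 := mu (md_nonneg _ _) (by positivity) (mul_le_mul_of_nonneg_left (hy x e i).1 q0)
          (C.del x e b d [j] (mem_words.2 (by simp)))
        have v2 := mu (md_nonneg _ _) e0 (C.del x e b d [] (mem_words.2 (by simp))) (w.trans
          (add_le_add (mul_le_mul_of_nonneg_left ((hy x e i).2 j) q0)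
            (mu (md_nonneg _ _) zero_le_one (hy x e i).1 q5)))
        refine (add_le_add v1 v2).trans (sub_nonneg.1 ((show 0 ≤ eps * (2 * k * φ (Φ.pr x) +
          (ka + 2) * (G (Φ.pr x) + bd (Φ.pr x))) by positivity).trans (le_of_eq (by ring))))
      · obtain ⟨o4, o5⟩ := d_out C.cp.isClosed (fun p hp => (C.out p hp).1) e
        have q5 := m1 x j le_rfl (by simp [o4]) (by simp [o4, o5])
        rw [(C.out _ e).1, abs_zero, zero_mul, le_antisymm q5 (md_nonneg _ _), mul_zero,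
          add_zero] at w
        simp [C.out _ e, le_antisymm w (md_nonneg _ _)]) u
  have e : ∑ i, ![rl A g * (kw Φ M a).W, -1, 0, 0, rl A g * (kw Φ M a).ca] i * Φ.X i u =
      mY Φ M a g u := by
    rw [sum5, mY, KW.S_ap]
    simp only [Matrix.cons_val, Fld.X0, Fld.X1, Fld.X4, kw]; ring
  rw [e, nj_rl_w, nj_add_w, nj_add_w] at p
  simp only [Jw, jq_eq]
  exact p.trans (le_of_eq (by simp only [nj, Fintype.card_fin]; ring))

/-- The zero order term. -/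
theorem step4 (c1 : c ≤ 1) (k0 : 0 ≤ ka) (u : A) : c * Jw Φ G (Φ.sq u) ≤
    2 * k * Jw Φ bd (Φ.sq u) + Jw Φ φ (Φ.sq (Φ.R u)) + Jw Φ φ (Φ.sq u) := by
  have W := wt_fn h D C
  have e := h.skR.self h.B W.K W.re u
  have s := sm_fd D.s1 (v := fun p => (-Φ.f p.2, 1))
    ((h.sf.comp contDiff_snd).neg.prodMk contDiff_const)
  have w : Wv S fun p => fderiv ℝ φ p (-Φ.f p.2, 1) := ⟨s, fun p hp => by
    simp [fd_dec, d_out C.cp.isClosed (fun p hp => (C.out p hp).1) hp]⟩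
  have w1 : Wv S φ := ⟨D.s1, fun p hp => (C.out p hp).1⟩
  have w2 : Wv S G := ⟨D.s2, fun p hp => (C.out p hp).2.1⟩
  have w3 : Wv S bd := ⟨D.s3, fun p hp => (C.out p hp).2.2⟩
  rw [h.Rf _ D.s1] at e
  have := Jw_list h C.cp C.sub [(1, fun p => fderiv ℝ φ p (-Φ.f p.2, 1), Φ.sq u), (-c, G, Φ.sq u),
    (2 * k, bd, Φ.sq u), (2, φ, Φ.R u * Φ.B.c u), (1, φ, Φ.sq (Φ.R u)), (1, φ, Φ.sq u)]
    (by simp [w, w1, w2, w3]) fun x hx => by
      simp only [List.map_cons, List.map_nil, List.sum_cons, List.sum_nil, h.val_sq, h.B.val_ip,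
        fd_dec]
      have q := (D.grad U L c1 k0 hx (C.rad _ hx).1 (C.rad _ hx).2).2.2.2.2
      have i := (abs_le.1 (abs_ip_le x (Φ.R u) u)).1
      have v := mul_nonneg (D.pos _ hx) (show 0 ≤ 2 * Φ.B.ip x (Φ.R u) u + Φ.B.md x (Φ.R u) ^ 2 +
        Φ.B.md x u ^ 2 by nlinarith [sq_nonneg (Φ.B.md x (Φ.R u) - Φ.B.md x u)])
      linarith [mul_le_mul_of_nonneg_right q (sq_nonneg (Φ.B.md x u))]
  simp only [List.map_cons, List.map_nil, List.sum_cons, List.sum_nil] at this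
  have e1 : Φ.B.bil (Φ.fn φ) (Φ.R u) u = Jw Φ φ _ := rfl
  have e2 : Φ.B.nsq (Φ.fn fun p => fderiv ℝ φ p (-Φ.f p.2, 1)) u = Jw Φ _ (Φ.sq u) := rfl
  linarith

end Vale.Agent.P354XI
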